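import Vale.Agent.P281.R2.H391.B1

/-!
# P281, R2: `(X, Δ)` is log canonical (in the sense of P285) for all rational SNC boundaries
-/

open scoped Manifold ContDiff Topology
open Filter Set MeasureTheory

set_option linter.all false

noncomputable section

namespace Vale.Agent.P281.R2.H73

open Vale.Agent.P272.K Vale.Agent.P285.H281.FD Vale.Agent.P281 Vale.Agent.P281.R2.H391

variable {n : ℕ} {X : Type} [TopologicalSpace X] [ChartedSpace (Cm n) X]
  [IsManifold 𝓘(ℂ, Cm n) ω X]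

theorem lc_of_divB [Nonempty X] {Δ : Set X → ℝ} (hΔ : FS.IsSNC (Cm n) Δ) {kk : Set X → ℕ} {m : ℕ}
    (hm : 0 < m) (hkk : ∀ D, (kk D : ℝ) = m * Δ D) {L : Bd X} {t : L.ι → X → ℂ}
    (h : DivB n kk L t) : Lc n m L t := by
  classical
  obtain ⟨L₂, t₂, hB, hlc⟩ := b1 Δ hΔ kk m hm hkk
  intro c hc hcm i e x he hi
  obtain ⟨j, hj⟩ := hB.lb.cover x
  obtain ⟨V₂, hV₂, hI⟩ := hlc c hc hcm j e x he hj
  obtain ⟨T, g, u, hkT, hg, hu, hu0, hev⟩ := h.loc i x hi
  obtain ⟨T₂, g₂, u₂, hkT₂, hg₂, hu₂, hu₂0, hev₂⟩ := hB.loc j x hj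
  set S : Finset (Set X) := T.filter fun D => kk D ≠ 0 with hS
  have hST : ∀ D ∈ S, D ∈ T := fun D hD => (Finset.mem_filter.1 hD).1
  have hST₂ : ∀ D ∈ S, D ∈ T₂ := fun D hD => hkT₂ D (Finset.mem_filter.1 hD).2
  have hmon : ∀ z, FS.mon T g kk z = FS.mon S g kk z := by
    intro z
    refine (Finset.prod_subset (fun D hD => hST D hD) fun D hD hD' => ?_).symm
    have : kk D = 0 := by
      by_contra h0
      exact hD' (Finset.mem_filter.2 ⟨hD, h0⟩)
    rw [this, pow_zero]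
  have hmon₂ : ∀ z, FS.mon T₂ g₂ kk z = FS.mon S g₂ kk z := by
    intro z
    refine (Finset.prod_subset (fun D hD => hST₂ D hD) fun D hD hD' => ?_).symm
    have : kk D = 0 := by
      by_contra h0
      exact hD' (Finset.mem_filter.2 ⟨hkT D h0, h0⟩)
    rw [this, pow_zero]
  obtain ⟨v, hv, hv0, hev'⟩ := exists_unit kk (fun D hD => hg D (hST D hD))
    fun D hD => hg₂ D (hST₂ D hD)
  -- the quotient of `t` and `t₂`
  set q : Cm n → ℂ := fun z => u (e.symm z) * v (e.symm z) * (u₂ (e.symm z))⁻¹ with hq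
  have hx : e.symm (e x) = x := e.left_inv he.2
  have a1 := (an_symm hu he)
  have a2 := (an_symm hv he)
  have a3 := (an_symm hu₂ he)
  have ha3 : u₂ (e.symm (e x)) ≠ 0 := by rw [hx]; exact hu₂0
  have hqa : AnalyticAt ℂ q (e x) := (a1.mul a2).mul (a3.inv ha3)
  have hq0 : q (e x) ≠ 0 := by
    simp only [hq, hx]
    exact mul_ne_zero (mul_ne_zero hu0 hv0) (inv_ne_zero hu₂0)
  have hcont : ContinuousAt e.symm (e x) := e.continuousAt_symm (e.map_source he.2)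
  have htend : Tendsto e.symm (𝓝 (e x)) (𝓝 x) := by
    have h1 := hcont.tendsto
    rwa [hx] at h1
  have hev3 : ∀ᶠ z in 𝓝 (e x), t i (e.symm z) = q z * t₂ j (e.symm z) := by
    filter_upwards [htend.eventually hev, htend.eventually hev₂, htend.eventually hev',
      a3.continuousAt.eventually_ne ha3] with z h1 h2 h3 h4
    rw [h1, h2, hmon, hmon₂, h3]
    simp only [hq]
    field_simp
  have hqn : ∀ᶠ z in 𝓝 (e x), q z ≠ 0 := hqa.continuousAt.eventually_ne hq0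
  have hqc : ∀ᶠ z in 𝓝 (e x), ContinuousAt q z := by
    filter_upwards [hqa.eventually_analyticAt] with z hz using hz.continuousAt
  obtain ⟨K, hK, hKc⟩ : ∃ K ∈ 𝓝 (e x), IsCompact K ∧ ∀ z ∈ K,
      t i (e.symm z) = q z * t₂ j (e.symm z) ∧ q z ≠ 0 ∧ ContinuousAt q z ∧ z ∈ V₂ := by
    obtain ⟨K, hK, hsub, hKc⟩ := local_compact_nhds (hev3.and (hqn.and (hqc.and
      (show ∀ᶠ z in 𝓝 (e x), z ∈ V₂ from hV₂))))
    exact ⟨K, hK, hKc, fun z hz => hsub hz⟩
  refine ⟨K, hK, ?_⟩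
  have h5 : IntegrableOn (fun z => ‖t₂ j (e.symm z)‖ ^ (-(2 * c))) K :=
    hI.mono_set fun z hz => (hKc.2 z hz).2.2.2
  have h6 : ContinuousOn (fun z => ‖q z‖ ^ (-(2 * c))) K := by
    intro z hz
    exact ((hKc.2 z hz).2.2.1.norm.rpow_const
      (Or.inl (norm_ne_zero_iff.2 (hKc.2 z hz).2.1))).continuousWithinAt
  have h7 := h5.continuousOn_mul h6 hKc.1
  refine h7.congr_fun (fun z hz => ?_) hKc.1.measurableSet
  show ‖q z‖ ^ (-(2 * c)) * ‖t₂ j (e.symm z)‖ ^ (-(2 * c)) = ‖t i (e.symm z)‖ ^ (-(2 * c))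
  rw [(hKc.2 z hz).1, norm_mul (q z), Real.mul_rpow (norm_nonneg (q z)) (norm_nonneg _)]

end Vale.Agent.P281.R2.H73
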