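import Vale.Agent.P281.R2.H73.Stmt
import Vale.Agent.P281.H716.Inst
import Vale.Agent.P281.H949.MFS.DG
import Vale.Agent.P281.H723.FS.Conv

/-!
# P281, R2: the line bundle `O(∑ k(D) D)`, rows B1 (without lc) and B2
-/

open scoped Manifold ContDiff Topology
open Filter Set

set_option linter.all false

noncomputable section

namespace Vale.Agent.P281.R2.H73

open Vale.Agent.P281 Vale.Agent.P285.H281.FD Vale.Agent.P272.K
open Vale.Agent.P281.H716 Vale.Agent.P281.H716.IsSys Vale.Agent.P281.H949.SA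

variable {n : ℕ} {X : Type} [TopologicalSpace X] [ChartedSpace (Cm n) X]
  [IsManifold 𝓘(ℂ, Cm n) ω X]

section bdl
variable {T : Finset (Set X)}

/-- the line bundle `O(∑ k(D) D)` -/
def bdl (h : IsSys n (eqL n) T) (k : Set X → ℕ) : Bd X where
  ι := X
  U := h.dom
  g i j x := ∏ D ∈ T, h.uu D i j x ^ k D

theorem isLB_bdl (h : IsSys n (eqL n) T) (k : Set X → ℕ) : IsLB n (bdl h k) :=
  ⟨(h.OL k).isOpen, (h.OL k).cover, (h.OL k).holo, (h.OL k).ne_zero, (h.OL k).cocycle⟩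

theorem divB_bdl [Nonempty X] (h : IsSys n (eqL n) T) {k : Set X → ℕ} (hk : ∀ D, k D ≠ 0 → D ∈ T) :
    DivB n k (bdl h k) (h.GG k) := by
  have hd : Dense {x | NZ (bdl h k) (h.GG k) x} :=
    h.dense_off.mono fun x hx i hi => h.GG_ne hi hx k
  refine ⟨isLB_bdl h k, ⟨fun i e x he hi => holV_chart he (h.holV_GG hi k),
    fun i j x hi hj => h.GG_eq k hi hj⟩, hd.nonempty, fun i x hi => ?_⟩
  refine ⟨T, fun D => h.gg D i, fun _ => 1, hk, fun D hD => h.dom_spec hi hD, ?_, one_ne_zero, ?_⟩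
  · exact HolV.const 1 x
  · exact Eventually.of_forall fun z => by rw [one_mul]; rfl

end bdl

section kod

variable {k : Set X → ℕ} {L : Bd X} {t : L.ι → X → ℂ} {m K : ℕ}

lemma holV_of_chart {g : X → ℂ} {e : Chart n X} {x : X} (he : At e x)
    (hg : ContDiffAt ℂ ω (fun z => g (e.symm z)) (e x)) : HolV (Cm n) g x := by
  have h1 : HolV (Cm n) (fun y => g (e.symm (e y))) x :=
    HolV.comp_contDiff (G := fun z => g (e.symm z)) hg (chart_contMDiffAt he)
  refine h1.congr ?_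
  filter_upwards [e.open_source.mem_nhds he.2] with y hy
  rw [e.left_inv hy]

lemma DivB.freq (h : DivB n k L t) (x : X) : ∃ᶠ z in 𝓝 x, NZ L t z := by
  obtain ⟨i, hi⟩ := h.lb.cover x
  obtain ⟨T, e, u, hkT, he, hu, hu0, hev⟩ := h.loc i x hi
  have h1 : ∃ᶠ z in 𝓝 x, ∏ D ∈ T, e D z ≠ 0 := by
    refine freq_prod (n := n) T e x (fun D hD => ?_) fun D hD => ?_
    · exact (IsLocalEq.holAt (E := Cm n) (D := D) (he D hD) : HolV (Cm n) (e D) x).eventually
    · filter_upwards [IsLocalEq.eventually (E := Cm n) (D := D) (he D hD)] with y hy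
      exact H76.frequently_ne (E := Cm n) (D := D) hy
  have hu' : HolV (Cm n) u x := hu
  refine (h1.and_eventually (hev.and ((hu'.continuousAt.eventually_ne hu0).and
    ((h.lb.isOpen i).mem_nhds hi)))).mono ?_
  rintro z ⟨hz, hz1, hz2, hz3⟩
  have h2 : t i z ≠ 0 := by
    rw [hz1]
    refine mul_ne_zero hz2 (Finset.prod_ne_zero_iff.2 fun D hD => pow_ne_zero _ ?_)
    exact Finset.prod_ne_zero_iff.1 hz D hD
  intro j hj
  rw [h.sec.change j i z hj hz3]
  exact mul_ne_zero (h.lb.ne_zero j i z hj hz3) h2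

/-- a trivialisation of `L` at `x` -/
def ixL (h : IsLB n L) (x : X) : L.ι := (h.cover x).choose

omit [IsManifold 𝓘(ℂ, Cm n) ω X] in
lemma mem_ixL (h : IsLB n L) (x : X) : x ∈ L.U (ixL h x) := (h.cover x).choose_spec

/-- the values on the standard frame of the section `σ` of `(K_X^m ⊗ L)^K`, divided by `t^K` -/
def val (h : DivB n k L t) (m K : ℕ) (σ : (((Bd.can n X).pow m).mul L).ι → X → ℂ) (x : X) : ℂ :=
  σ (chartAt (Cm n) x, ixL h.lb x) x * dj (chartAt (Cm n) x) x ^ (m * K) / t (ixL h.lb x) x ^ K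

lemma at_chartAt' (x : X) : At (chartAt (Cm n) x) x :=
  ⟨chart_mem_atlas _ _, mem_chart_source _ _⟩

lemma val_eq (h : DivB n k L t) {σ : (((Bd.can n X).pow m).mul L).ι → X → ℂ}
    (hσ : IsSec n ((((Bd.can n X).pow m).mul L).pow K) σ) {e : Chart n X} {i : L.ι} {x : X}
    (he : At e x) (hi : x ∈ L.U i) (hx : NZ L t x) :
    val h m K σ x = σ (e, i) x * dj e x ^ (m * K) / t i x ^ K := by
  have hc : At (chartAt (Cm n) x) x := at_chartAt' x
  set c : Chart n X := chartAt (Cm n) x with hcd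
  have hj := mem_ixL h.lb x
  set j := ixL h.lb x with hjd
  have h1 : σ (c, j) x = ((jacM c e x).det ^ m * L.g j i x) ^ K * σ (e, i) x :=
    hσ.change (c, j) (e, i) x ⟨hc, hj⟩ ⟨he, hi⟩
  have h2 := h.sec.change j i x hj hi
  have h3 := dj_eq hc he
  have h4 := h.lb.ne_zero j i x hj hi
  have h5 := hx i hi
  show σ (c, j) x * dj c x ^ (m * K) / t j x ^ K = _
  rw [h1, h2, h3]
  have e1 : (L.g j i x * t i x) ^ K ≠ 0 := pow_ne_zero _ (mul_ne_zero h4 h5)
  have e2 : t i x ^ K ≠ 0 := pow_ne_zero _ h5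
  rw [div_eq_div_iff e1 e2]
  ring

theorem isSection_val (h : DivB n k L t) {σ : (((Bd.can n X).pow m).mul L).ι → X → ℂ}
    (hσ : IsSec n ((((Bd.can n X).pow m).mul L).pow K) σ) (hK : 1 ≤ K) :
    FS.IsSection (Cm n) (fun D x g => FS.Eqn (Cm n) D g x) (m * K) (fun D => K * k D)
      (val h m K σ) := by
  intro z₀
  have hc : At (chartAt (Cm n) z₀) z₀ := at_chartAt' z₀
  set c : Chart n X := chartAt (Cm n) z₀ with hcd
  have hi := mem_ixL h.lb z₀
  set i := ixL h.lb z₀ with hid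
  obtain ⟨T, e, u, hkT, he, hu, hu0, hev⟩ := h.loc i z₀ hi
  have hu' : HolV (Cm n) u z₀ := hu
  refine ⟨T, e, fun z => σ (c, i) z / u z ^ K, fun D hD => hkT D fun h0 => hD (by
    simp only [h0, mul_zero]), he, ?_, ?_⟩
  · have h1 : HolV (Cm n) (σ (c, i)) z₀ := holV_of_chart hc (hσ.holo (c, i) c z₀ hc ⟨hc, hi⟩)
    exact h1.div (hu'.pow K) (pow_ne_zero _ hu0)
  · filter_upwards [hev, at_ev hc, (h.lb.isOpen i).mem_nhds hi,
      hu'.continuousAt.eventually_ne hu0] with z h1 h2 h3 h4 hne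
    have h5 : FS.mon T e (fun D => K * k D) z = FS.mon T e k z ^ K := by
      show ∏ D ∈ T, e D z ^ (K * k D) = (∏ D ∈ T, e D z ^ k D) ^ K
      rw [← Finset.prod_pow]
      refine Finset.prod_congr rfl fun D _ => ?_
      rw [← _root_.pow_mul, mul_comm]
    rw [h5] at hne ⊢
    have h6 : FS.mon T e k z ≠ 0 := fun h0 => hne (by rw [h0, zero_pow (by omega)])
    have h7 : t i z ≠ 0 := by rw [h1]; exact mul_ne_zero h4 h6
    have h8 : NZ L t z := by
      intro j hj
      rw [h.sec.change j i z hj h3]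
      exact mul_ne_zero (h.lb.ne_zero j i z hj h3) h7
    rw [val_eq h hσ h2 h3 h8, h1]
    show _ = σ (c, i) z / u z ^ K * dj c z ^ (m * K)
    rw [mul_pow]
    have e1 : u z ^ K ≠ 0 := pow_ne_zero _ h4
    have e2 : FS.mon T e k z ^ K ≠ 0 := pow_ne_zero _ h6
    field_simp

omit [TopologicalSpace X] [ChartedSpace (Cm n) X] [IsManifold 𝓘(ℂ, Cm n) ω X] in
/-- linearly independent functionals -/
lemma surj_of_li {r : ℕ} {φ : Fin r → (Cm n →L[ℂ] ℂ)} (h : LinearIndependent ℂ φ) :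
    ∀ v : Fin r → ℂ, ∃ η : Cm n, ∀ b, φ b η = v b := by
  set Φ : Cm n →ₗ[ℂ] (Fin r → ℂ) := LinearMap.pi fun b => (φ b : Cm n →ₗ[ℂ] ℂ) with hΦ
  have hs : LinearMap.range Φ = ⊤ := by
    by_contra hne
    obtain ⟨f, hf, hle⟩ := Submodule.exists_le_ker_of_lt_top _ (lt_top_iff_ne_top.2 hne)
    have h1 : ∑ b, f (Pi.single b 1) • φ b = 0 := by
      ext1 η
      have h2 : f (Φ η) = 0 := hle ⟨η, rfl⟩
      have h3 : Φ η = ∑ b, (φ b η) • (Pi.single b (1 : ℂ) : Fin r → ℂ) := by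
        funext a
        simp [hΦ, Finset.sum_apply, Pi.single_apply]
      rw [h3, map_sum] at h2
      simp only [map_smul, smul_eq_mul] at h2
      simp only [ContinuousLinearMap.coe_sum', Finset.sum_apply, ContinuousLinearMap.coe_smul',
        Pi.smul_apply, smul_eq_mul, ContinuousLinearMap.zero_apply]
      rw [← h2]
      exact Finset.sum_congr rfl fun b _ => mul_comm _ _
    have h4 := Fintype.linearIndependent_iff.1 h (fun b => f (Pi.single b 1)) h1
    apply hf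
    refine LinearMap.ext fun v => ?_
    have h5 : v = ∑ b, v b • (Pi.single b (1 : ℂ) : Fin r → ℂ) := by
      funext a
      simp [Finset.sum_apply, Pi.single_apply]
    rw [h5, map_sum]
    simp only [map_smul, h4, smul_zero, Finset.sum_const_zero, LinearMap.zero_apply]
  intro v
  obtain ⟨η, hη⟩ : v ∈ LinearMap.range Φ := by rw [hs]; trivial
  exact ⟨η, fun b => by rw [← hη]; rfl⟩

/-- **B2** -/
theorem b2 {Δ : Set X → ℝ} (h : DivB n k L t) (hm : 0 < m) (hk : ∀ D, (k D : ℝ) = m * Δ D)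
    {r : ℕ} (hr : Vale.Agent.P285.H716.AB.KodGE n (((Bd.can n X).pow m).mul L) r) :
    ((r : ℕ) : WithBot ℕ∞) ≤ FS.kodX (Cm n) Δ := by
  obtain ⟨K, hK, s, hs, i, e, x, he, hi, hs0, hli⟩ := hr
  obtain ⟨c', j⟩ := i
  have hi1 : At c' x := hi.1
  have hi2 : x ∈ L.U j := hi.2
  set Q : Fin r → Cm n → ℂ := fun a z => s a.succ (c', j) (e.symm z) / s 0 (c', j) (e.symm z)
    with hQ
  have hQω : ∀ a, ContDiffAt ℂ ω (Q a) (e x) := fun a =>
    ((hs a.succ).holo (c', j) e x he hi).div ((hs 0).holo (c', j) e x he hi) (by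
      rw [he.left_inv]; exact hs0)
  have hc1 : ContinuousAt (fun z => fun a => fderiv ℂ (Q a) z) (e x) := by
    refine continuousAt_pi.2 fun a => ?_
    exact ((hQω a).fderiv_right (m := 0) (by simp)).continuousAt
  have h1 : ∀ᶠ z in 𝓝 (e x), LinearIndependent ℂ fun a => fderiv ℂ (Q a) z :=
    hc1.eventually_mem (isOpen_setOf_linearIndependent.mem_nhds hli)
  have h2 : ∀ᶠ y in 𝓝 x, LinearIndependent ℂ fun a => fderiv ℂ (Q a) (e y) :=
    (e.continuousAt he.2).eventually h1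
  have hs0' : HolV (Cm n) (s 0 (c', j)) x := holV_of_chart he ((hs 0).holo (c', j) e x he hi)
  have hUj : ∀ᶠ y in 𝓝 x, y ∈ L.U j := (h.lb.isOpen j).mem_nhds hi2
  obtain ⟨y, hy1, hy2, hy3, hy4, hy5, hy6⟩ := ((h.freq x).and_eventually (h2.and ((at_ev he).and
    ((at_ev hi1).and (hUj.and (hs0'.continuousAt.eventually_ne hs0)))))).exists
  set S : ℕ → X → ℂ := fun b => val h m K (s ⟨min b r, by omega⟩) with hS
  have hSeq : ∀ b (hb : b < r + 1), S b = val h m K (s ⟨b, hb⟩) := by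
    intro b hb
    simp only [hS]
    congr 2
    exact Fin.ext (min_eq_left (by omega))
  have hval : ∀ a z, At c' z → z ∈ L.U j → NZ L t z →
      val h m K (s a) z = s a (c', j) z * dj c' z ^ (m * K) / t j z ^ K :=
    fun a z hz1 hz2 hz3 => val_eq h (hs a) hz1 hz2 hz3
  have hS0 : S 0 = val h m K (s 0) := hSeq 0 (by omega)
  have hSy : S 0 y ≠ 0 := by
    rw [hS0, hval 0 y hy4 hy5 hy1]
    exact div_ne_zero (mul_ne_zero hy6 (pow_ne_zero _ (dj_ne_zero hy4)))
      (pow_ne_zero _ (hy1 j hy5))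
  have hNZ : ∀ᶠ z in 𝓝 y, NZ L t z := by
    have h3 : HolV (Cm n) (t j) y := holV_of_chart hy3 (h.sec.holo j e y hy3 hy5)
    filter_upwards [h3.continuousAt.eventually_ne (hy1 j hy5), (h.lb.isOpen j).mem_nhds hy5] with
      z hz hz' j' hj'
    rw [h.sec.change j' j z hj' hz']
    exact mul_ne_zero (h.lb.ne_zero j' j z hj' hz') hz
  have hsy0 : HolV (Cm n) (s 0 (c', j)) y :=
    holV_of_chart hy3 ((hs 0).holo (c', j) e y hy3 ⟨hy4, hy5⟩)
  have hquo : ∀ b : Fin r, (fun w => S (b + 1) w / S 0 w) =ᶠ[𝓝 y]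
      fun w => s b.succ (c', j) w / s 0 (c', j) w := by
    intro b
    filter_upwards [hNZ, at_ev hy4, (h.lb.isOpen j).mem_nhds hy5,
      hsy0.continuousAt.eventually_ne hy6] with w hw1 hw2 hw3 hw4
    have h3 : S (b + 1) = val h m K (s b.succ) := hSeq _ (by omega)
    rw [h3, hS0, hval _ w hw2 hw3 hw1, hval _ w hw2 hw3 hw1,
      div_div_div_cancel_right₀ (pow_ne_zero _ (hw1 j hw3)),
      mul_div_mul_right _ _ (pow_ne_zero _ (dj_ne_zero hw2))]
  refine le_iSup₂_of_le r ⟨m * K, fun D => K * k D, S, y, Nat.mul_pos hm hK, fun D => ?_,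
    fun b => isSection_val h (hs _) hK, fun D hD => ?_, hSy, ?_⟩ le_rfl
  · push_cast
    rw [hk D]
    ring
  · obtain ⟨T, e', u, hkT, he', hu, hu0, hev⟩ := h.loc j y hy5
    have h3 := hev.self_of_nhds
    have h4 : FS.mon T e' k y ≠ 0 := fun h0 => hy1 j hy5 (by rw [h3, h0, mul_zero])
    have hkD : k D ≠ 0 := fun h0 => hD (by simp only [h0, mul_zero])
    have hDT := hkT D hkD
    refine ⟨e' D, he' D hDT, fun h0 => ?_⟩
    exact Finset.prod_ne_zero_iff.1 h4 D hDT (by rw [h0, zero_pow hkD])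
  · intro v
    obtain ⟨η, hη⟩ := surj_of_li hy2 v
    have hcy := at_chartAt' (n := n) y
    set A := jacM (chartAt (Cm n) y) e y with hA
    have hAu : IsUnit A.det := isUnit_iff_ne_zero.2 (jacM_det_ne_zero hcy hy3)
    refine ⟨A⁻¹.mulVec η, ?_⟩
    funext b
    have hhol : J.HolAt (Cm n) (fun w => s b.succ (c', j) w / s 0 (c', j) w) y := by
      have h5 : HolV (Cm n) (s b.succ (c', j)) y :=
        holV_of_chart hy3 ((hs b.succ).holo (c', j) e y hy3 ⟨hy4, hy5⟩)
      exact h5.div hsy0 hy6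
    have h6 : FS.dif (Cm n) (fun w => S (b + 1) w / S 0 w) y =
        J.dif (Cm n) (fun w => s b.succ (c', j) w / s 0 (c', j) w) y := (hquo b).mfderiv_eq
    show FS.dif (Cm n) (fun w => S (b + 1) w / S 0 w) y (A⁻¹.mulVec η) = v b
    rw [h6, Vale.Agent.P281.H949.MFS.dif_chart hy3 hhol, ← hA, Matrix.mulVec_mulVec,
      Matrix.mul_nonsing_inv _ hAu, Matrix.one_mulVec]
    exact hη b

end kod

end Vale.Agent.P281.R2.H73
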