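import Vale.Agent.P281.R2.H73.Stmt

/-!
# P281, R2: definitions of the final statement (1)
-/

open scoped Manifold ContDiff
open Vale.Agent.P281.FS

noncomputable section

namespace Vale.Agent.P281.R2.H73

open Vale.Agent.P285.H281.FD (Bd Nef)
open Vale.Agent.P285.H716.AB (NumDim Kod)

/-- the inequality `κ(X, K_X + Δ) ≥ κ(F, K_F + Δ|_F) + k`, where `k` is `kodF` -/
def Ineq (n p d : ℕ) {X Z Y F : Type} [TopologicalSpace X] [Mfd n X] [TopologicalSpace Z] [Mfd n Z]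
    [TopologicalSpace Y] [Mfd p Y] [TopologicalSpace F] [Mfd d F] (Δ : Set X → ℝ) (j : Z → X)
    (f : Z → Y) (i : F → Z) : Prop :=
  kodR (Cm n) (Cm d) (fun t => j (i t)) Δ + kodF n p Δ j f ≤ kodX (Cm n) Δ

/-- `K_X + Δ` is nef (`w` is a Kähler metric; `O(m Δ) = L`, with canonical section `t`), and
`κ(X, K_X + Δ) = ν(X, K_X + Δ)`. -/
def NefAbundant (n : ℕ) {X : Type} [TopologicalSpace X] [Mfd n X] (w : Form n X)
    (Δ : Set X → ℝ) : Prop :=
  ∃ (m : ℕ) (k : Set X → ℕ) (L : Bd X) (t : L.ι → X → ℂ) (r : ℕ), 0 < m ∧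
    (∀ D, (k D : ℝ) = m * Δ D) ∧ DivB n k L t ∧ Nef w (((Bd.can n X).pow m).mul L) ∧ r ≤ n ∧
    Kod n (((Bd.can n X).pow m).mul L) r ∧ NumDim w (((Bd.can n X).pow m).mul L) r

end Vale.Agent.P281.R2.H73
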