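import Vale.Agent.P281.H723.FS.Defs
import Vale.Agent.P272.K.Stmt

/-!
# P281, R2: hyperbolic pairs and families over hyperbolic bases, definitions
-/

open scoped Manifold ContDiff ComplexOrder Topology
open Vale.Agent.P281.FS (Cm Mfd Chart Form HolAt Eqn mon dif BigOpen IsRestr OrbMor Setup OrbLe kodF
  kodR kodX)

noncomputable section

namespace Vale.Agent.P281.R2.H73.C

open Vale.Agent.P272.K (At IsHermitian IsKahler cHess dz jacM)

/-- A line bundle on `X`, given by transition functions `g i j` (frames: `t_j = g i j t_i`) for a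
family of subsets `U i`. -/
structure LB (X : Type) where
  ι : Type
  U : ι → Set X
  g : ι → ι → X → ℂ

section
variable (E E' : Type) [NormedAddCommGroup E] [NormedSpace ℂ E] [NormedAddCommGroup E']
  [NormedSpace ℂ E'] {X B : Type} [TopologicalSpace X] [ChartedSpace E X] [TopologicalSpace B]
  [ChartedSpace E' B]

/-- the sets `U i` form an open cover and the `g i j` are a holomorphic cocycle without zeros -/
def IsLB (L : LB X) : Prop :=
  (∀ i, IsOpen (L.U i)) ∧ (∀ x, ∃ i, x ∈ L.U i) ∧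
    ∀ i j k x, x ∈ L.U i → x ∈ L.U j → x ∈ L.U k →
      HolAt E (L.g i j) x ∧ L.g i j x ≠ 0 ∧ L.g i j x * L.g j k x = L.g i k x

/-- `L = O(∑ k(D) D)`, with the canonical section `t`, whose coefficient over `U i` is `t i` -/
def IsO (k : Set X → ℕ) (L : LB X) (t : L.ι → X → ℂ) : Prop :=
  (∃ x, ∀ i, x ∈ L.U i → t i x ≠ 0) ∧
    ∀ i j x, x ∈ L.U i → x ∈ L.U j → t i x = L.g i j x * t j x ∧
      ∃ (T : Finset (Set X)) (e : Set X → X → ℂ) (u : X → ℂ), (∀ D, k D ≠ 0 → D ∈ T) ∧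
        (∀ D ∈ T, Eqn E D (e D) x) ∧ HolAt E u x ∧ u x ≠ 0 ∧ ∀ᶠ z in 𝓝 x, t i z = u z * mon T e k z

/-- `ψ` is a smooth Hermitian metric on `L`, with the weight `ψ i` over `U i`: `|t_i|² = exp (-ψ i)` -/
def IsMet (L : LB X) (ψ : L.ι → X → ℝ) : Prop :=
  ∀ i j x, x ∈ L.U i → x ∈ L.U j → ψ i x = ψ j x + Real.log (‖L.g i j x‖ ^ 2) ∧
    ∀ e ∈ atlas E X, x ∈ e.source → ContDiffAt ℝ ∞ (fun z => ψ i (e.symm z)) (e x)

/-- `h : X → B` is a surjective holomorphic submersion -/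
def Subm (h : X → B) : Prop :=
  ContMDiff 𝓘(ℂ, E) 𝓘(ℂ, E') ω h ∧ Function.Surjective h ∧
    ∀ x, Function.Surjective (mfderiv 𝓘(ℂ, E) 𝓘(ℂ, E') h x)

/-- near `x`, the function `f` is the `μ`-th power of a holomorphic function -/
def IsPow (μ : ℕ) (f : X → ℂ) (x : X) : Prop := ∃ u, HolAt E u x ∧ ∀ᶠ y in 𝓝 x, f y = u y ^ μ

/-- near `x`, the function `f` is holomorphic and a unit times `g` -/
def IsUnitMul (f g : X → ℂ) (x : X) : Prop :=
  HolAt E f x ∧ ∃ u, HolAt E u x ∧ u x ≠ 0 ∧ ∀ᶠ y in 𝓝 x, f y = u y * g y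

/-- the `s i` are local equations (in all charts) of effective divisors `D_i` -/
def IsEqs {l : ℕ} (s : Fin l → OpenPartialHomeomorph X E → E → ℂ) : Prop :=
  ∀ i, ∀ e ∈ atlas E X, ∀ e' ∈ atlas E X, ∀ v ∈ e.source, v ∈ e'.source →
    IsUnitMul E (fun y => s i e (e y)) (fun y => s i e' (e' y)) v

/-- every entire curve `g` with image in `A` which for each `i` is contained in `D_i` or satisfies
`μ i ∣ g^*D_i` (for `μ i = 0`: is disjoint from `D_i`) is constant -/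
def NoCurve {l : ℕ} (A : Set X) (s : Fin l → OpenPartialHomeomorph X E → E → ℂ)
    (μ : Fin l → ℕ) : Prop :=
  ∀ g : ℂ → X, MDifferentiable 𝓘(ℂ, ℂ) 𝓘(ℂ, E) g → (∀ z, g z ∈ A) →
    (∀ i, (∀ z, ∀ e ∈ atlas E X, g z ∈ e.source → s i e (e (g z)) = 0) ∨
      ∀ z, ∀ e ∈ atlas E X, g z ∈ e.source → (μ i = 0 → s i e (e (g z)) ≠ 0) ∧
        (μ i ≠ 0 → IsPow ℂ (μ i) (fun y => s i e (e (g y))) z)) →
    ∀ z z', g z = g z'

/-- `Δ ≥ ∑ (1 - 1/μ_i) D_i`, where `∑ D_i` is a reduced simple normal crossings divisor,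
`μ_i ∈ {2, 3, ..., ∞}` (`∞` is written `0`), and the orbifold `(X, ∑ (1 - 1/μ_i) D_i)` is Brody
hyperbolic. -/
def OrbHyp (Δ : Set X → ℝ) : Prop :=
  ∃ (l : ℕ) (s : Fin l → OpenPartialHomeomorph X E → E → ℂ) (μ : Fin l → ℕ), IsEqs E s ∧
    (∀ e ∈ atlas E X, ∀ x ∈ e.source, LinearIndependent ℂ fun i : {i : Fin l // s i e (e x) = 0} =>
      dif E (fun y => s i.1 e (e y)) x) ∧
    (∀ i, μ i ≠ 1 ∧
      1 - (μ i : ℝ)⁻¹ ≤ Δ {x | ∀ e ∈ atlas E X, x ∈ e.source → s i e (e x) = 0}) ∧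
    NoCurve E Set.univ s μ

/-- `G : X → B` is holomorphic, and for some effective divisors `D_i` on `B` and `μ i ≥ 1` with
`μ i ∣ G^*D_i` (or `G(X) ⊆ D_i`, locally) every entire curve `g` in `B` with image in `G(X)` which for
each `i` is contained in `D_i` or satisfies `μ i ∣ g^*D_i` is constant. For instance (`l = 0`), `G(X)`
contains no nonconstant entire curve. -/
def ToOrbHyp (G : X → B) : Prop :=
  ContMDiff 𝓘(ℂ, E) 𝓘(ℂ, E') ω G ∧
  ∃ (l : ℕ) (s : Fin l → OpenPartialHomeomorph B E' → E' → ℂ) (μ : Fin l → ℕ), IsEqs E' s ∧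
    (∀ i, 1 ≤ μ i ∧ ∀ e ∈ atlas E' B, ∀ x, G x ∈ e.source →
      IsPow E (μ i) (fun y => s i e (e (G y))) x) ∧
    NoCurve E' (Set.range G) s μ

/-- `X` is a complex manifold -/
def IsMan (X : Type) [TopologicalSpace X] [ChartedSpace E X] : Prop := IsManifold 𝓘(ℂ, E) ω X

end

/-- `u : X ⇢ W` is a meromorphic map, `dim W = dim X`, holomorphic on the open subset `Z` (embedded by
`j`) whose complement has codimension `≥ 2`, and submersive somewhere, and `u : (Z, Δ|_Z) → (W, Γ)` is a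
morphism of orbifolds in codimension one. -/
def IsOrbMap (E : Type) [NormedAddCommGroup E] [NormedSpace ℂ E] {X Z W : Type}
    [TopologicalSpace X] [ChartedSpace E X] [TopologicalSpace Z] [ChartedSpace E Z]
    [TopologicalSpace W] [ChartedSpace E W] (Δ : Set X → ℝ) (Γ : Set W → ℝ) (j : Z → X)
    (u : Z → W) : Prop :=
  BigOpen E j ∧ ContMDiff 𝓘(ℂ, E) 𝓘(ℂ, E) ω u ∧
    (∃ z, Function.Surjective (mfderiv 𝓘(ℂ, E) 𝓘(ℂ, E) u z)) ∧
    ∃ Δ' : Set Z → ℝ, IsRestr E Δ j Δ' ∧ OrbMor E E u Δ' Γ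

/-- The inequality `κ(X, K_X + Δ) ≥ κ(F, K_F + Δ|_F) + k` for the meromorphic map `f` (holomorphic on
`Z`) and the fibre `F`, and `k` is at least `κ(Y, K_Y + Γ)` and `κ(f₀ | Δ)` in the situations of
`OrbLe`. -/
def Holds (E E' E'' : Type) [NormedAddCommGroup E] [NormedSpace ℂ E] [NormedAddCommGroup E']
    [NormedSpace ℂ E'] [NormedAddCommGroup E''] [NormedSpace ℂ E''] {X Z Y F : Type}
    [TopologicalSpace X] [ChartedSpace E X] [TopologicalSpace Z] [ChartedSpace E Z]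
    [TopologicalSpace Y] [ChartedSpace E' Y] [TopologicalSpace F] [ChartedSpace E'' F]
    (Δ : Set X → ℝ) (j : Z → X) (f : Z → Y) (i : F → Z) (k : WithBot ℕ∞) : Prop :=
  Setup E E' E'' Δ j f i →
    kodR E E'' (fun t => j (i t)) Δ + k ≤ kodX E Δ ∧ OrbLe E E' Δ j f k

/-- Campana's inequality for all meromorphic maps `f` of `(X, Δ)` and all fibres `F` -/
def Campana (n : ℕ) {X : Type} [TopologicalSpace X] [Mfd n X] (Δ : Set X → ℝ) : Prop :=
  ∀ (p d : ℕ), n = p + d → ∀ (Z Y F : Type) [TopologicalSpace Z] [Mfd n Z] [TopologicalSpace Y]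
    [T2Space Y] [ConnectedSpace Y] [Mfd p Y] [TopologicalSpace F] [T2Space F] [CompactSpace F]
    [ConnectedSpace F] [Mfd d F] (j : Z → X) (f : Z → Y) (i : F → Z),
    Holds (Cm n) (Cm p) (Cm d) Δ j f i (kodF n p Δ j f)

/-- The line bundle `N` on `B` is positive relative to `G : B → V`: some metric of `N` has the
curvature form `θ` with `θ + C G^*a > 0` for a Hermitian metric `a` of `V` and a constant `C` (`J` is
the Jacobian matrix of `G`). -/
def RelPos (b r : ℕ) {B V : Type} [TopologicalSpace B] [Mfd b B] [TopologicalSpace V] [Mfd r V]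
    (N : LB B) (G : B → V) : Prop :=
  ∃ (a : Form r V) (ψ : N.ι → B → ℝ) (C : ℝ), IsHermitian a ∧ IsMet (Cm b) N ψ ∧
    ∀ i (e : Chart b B) (e' : Chart r V) z, At e z → z ∈ N.U i → At e' (G z) →
      ∀ J, J = (Matrix.of fun q j => dz j (fun y => e' (G (e.symm y)) q) (e z)) →
        (cHess (fun y => ψ i (e.symm y)) (e z) + (C : ℂ) •
          (J.transpose * a e' (e' (G z)) * J.map (starRingEnd ℂ))).PosDef

/-- `h : X → B` is a surjective holomorphic submersion onto the compact Kähler manifold `B`, `dim B = b`,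
`G : B → V` maps `B` to a compact hyperbolic orbifold (`ToOrbHyp`), and `O(q m (K_X + Δ)) ≅ h^*N`, where
`O(m Δ) = D` (with the canonical section `t`), `N` is positive relative to `G`, and `u e i j` is the
coefficient of the isomorphism with respect to the frame `(dz_1 ∧ … ∧ dz_n)^(qm) ⊗ t_i^q` (`dz` in the
chart `e`) and the frame of `N` with index `j`. -/
def OverHyp (n b : ℕ) {X : Type} [TopologicalSpace X] [Mfd n X] (Δ : Set X → ℝ) : Prop :=
  ∃ (B V : Type) (_ : TopologicalSpace B) (_ : T2Space B) (_ : CompactSpace B) (_ : Mfd b B)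
    (r : ℕ) (_ : TopologicalSpace V) (_ : T2Space V) (_ : CompactSpace V) (_ : Mfd r V)
    (h : X → B) (G : B → V) (w : Form b B) (m q : ℕ) (k : Set X → ℕ) (D : LB X)
    (t : D.ι → X → ℂ) (N : LB B) (u : Chart n X → D.ι → N.ι → X → ℂ),
    IsMan (Cm b) B ∧ IsMan (Cm r) V ∧ IsKahler w ∧ Subm (Cm n) (Cm b) h ∧
    ToOrbHyp (Cm b) (Cm r) G ∧ 1 ≤ m ∧ 1 ≤ q ∧ (∀ E, (k E : ℝ) = m * Δ E) ∧ IsLB (Cm n) D ∧
    IsO (Cm n) k D t ∧ IsLB (Cm b) N ∧ RelPos b r N G ∧
    ∀ e e' i i' j j' x, At e x → At e' x → x ∈ D.U i → x ∈ D.U i' → h x ∈ N.U j → h x ∈ N.U j' →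
      HolAt (Cm n) (u e i j) x ∧ u e i j x ≠ 0 ∧
        u e i j x * N.g j j' (h x) = ((jacM e e' x).det ^ m * D.g i i' x) ^ q * u e' i' j' x

end Vale.Agent.P281.R2.H73.C
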