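import Vale.Agent.P281.R2.H73.DefsC

/-!
# P281, R2: families over hyperbolic bases, relatively positive or relatively nef and big, definitions
-/

open scoped Manifold ContDiff ComplexOrder
open Vale.Agent.P281.FS (Cm Mfd Chart Form HolAt)

noncomputable section

namespace Vale.Agent.P281.R2.H73.D

open Vale.Agent.P272.K (At IsHermitian IsKahler cHess dz jacM)
open Vale.Agent.P281.R2.H73.C (LB IsLB IsO IsMet Subm ToOrbHyp IsMan)

/-- the pull-back `h^*N` of the line bundle `N` -/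
def pull {X B : Type} (h : X → B) (N : LB B) : LB X where
  ι := N.ι
  U i := h ⁻¹' N.U i
  g i j x := N.g i j (h x)

section
variable {b : ℕ} (r : ℕ) {B V : Type} [TopologicalSpace B] [Mfd b B] [TopologicalSpace V] [Mfd r V]

/-- `ψ` is a metric of the line bundle `N` on `B` whose curvature form `θ` satisfies
`θ + C G^*a + ε w ≥ 0` (`J` is the Jacobian matrix of `G : B → V`) -/
def CurvGe (N : LB B) (G : B → V) (w : Form b B) (a : Form r V) (ψ : N.ι → B → ℝ) (C ε : ℝ) :
    Prop :=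
  IsMet (Cm b) N ψ ∧
    ∀ i (e : Chart b B) (e' : Chart r V) z, At e z → z ∈ N.U i → At e' (G z) →
      ∀ J, J = (Matrix.of fun q j => dz j (fun y => e' (G (e.symm y)) q) (e z)) →
        (cHess (fun y => ψ i (e.symm y)) (e z) + (C : ℂ) •
          (J.transpose * a e' (e' (G z)) * J.map (starRingEnd ℂ)) + (ε : ℂ) • w e (e z)).PosSemidef

/-- `N` is positive relative to `G : B → V`: some metric of `N` has the curvature form `θ` with
`θ + C G^*a ≥ ε w` for a Hermitian metric `a` of `V`, some `C` and some `ε > 0` -/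
def RelPos (w : Form b B) (N : LB B) (G : B → V) : Prop :=
  ∃ (a : Form r V) (ψ : N.ι → B → ℝ) (C ε : ℝ), IsHermitian a ∧ 0 < ε ∧ CurvGe r N G w a ψ C (-ε)

/-- `N` is nef relative to `G : B → V`: for a Hermitian metric `a` of `V` and each `ε > 0` some metric
of `N` has the curvature form `θ` with `θ + C G^*a + ε w ≥ 0` for some `C` -/
def RelNef (w : Form b B) (N : LB B) (G : B → V) : Prop :=
  ∃ a : Form r V, IsHermitian a ∧ ∀ ε : ℝ, 0 < ε → ∃ (ψ : N.ι → B → ℝ) (C : ℝ), CurvGe r N G w a ψ C ε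

/-- `N` is big relative to `G : B → V`: there is a nonzero homomorphism `A → N^k` (with the
coefficients `s`), where `k ≥ 1` and the line bundle `A` is positive relative to `G` -/
def RelBig (w : Form b B) (N : LB B) (G : B → V) : Prop :=
  ∃ (k : ℕ) (A : LB B) (s : N.ι → A.ι → B → ℂ), 1 ≤ k ∧ IsLB (Cm b) A ∧ RelPos r w A G ∧
    (∃ x, ∀ i j, x ∈ N.U i → x ∈ A.U j → s i j x ≠ 0) ∧
    ∀ i i' j j' x, x ∈ N.U i → x ∈ N.U i' → x ∈ A.U j → x ∈ A.U j' →
      HolAt (Cm b) (s i j) x ∧ s i j x * A.g j j' x = N.g i i' x ^ k * s i' j' x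

end

/-- `h : X → B` is a surjective holomorphic submersion onto the compact Kähler manifold `B`, `dim B = b`,
`G : B → V` maps `B` to a compact hyperbolic orbifold (`ToOrbHyp`), and `O(q m (K_X + Δ)) ≅ h^*N`, where
`O(m Δ) = D` (with the canonical section `t`), `N` is positive relative to `G` or (if `b = n`) `N` is big
relative to `G` and `h^*N` is nef relative to `G ∘ h`, and `u e i j` is the coefficient of the
isomorphism with respect to the frame `(dz_1 ∧ … ∧ dz_n)^(qm) ⊗ t_i^q` (`dz` in the chart `e`) and the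
frame of `N` with index `j`. -/
def OverHyp (n b : ℕ) {X : Type} [TopologicalSpace X] [Mfd n X] (wX : Form n X)
    (Δ : Set X → ℝ) : Prop :=
  ∃ (B V : Type) (_ : TopologicalSpace B) (_ : T2Space B) (_ : CompactSpace B) (_ : Mfd b B)
    (r : ℕ) (_ : TopologicalSpace V) (_ : T2Space V) (_ : CompactSpace V) (_ : Mfd r V)
    (h : X → B) (G : B → V) (w : Form b B) (m q : ℕ) (k : Set X → ℕ) (D : LB X)
    (t : D.ι → X → ℂ) (N : LB B) (u : Chart n X → D.ι → N.ι → X → ℂ),
    IsMan (Cm b) B ∧ IsMan (Cm r) V ∧ IsKahler w ∧ Subm (Cm n) (Cm b) h ∧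
    ToOrbHyp (Cm b) (Cm r) G ∧ 1 ≤ m ∧ 1 ≤ q ∧ (∀ E, (k E : ℝ) = m * Δ E) ∧ IsLB (Cm n) D ∧
    IsO (Cm n) k D t ∧ IsLB (Cm b) N ∧
    (RelPos r w N G ∨ b = n ∧ RelBig r w N G ∧ RelNef r wX (pull h N) fun x => G (h x)) ∧
    ∀ e e' i i' j j' x, At e x → At e' x → x ∈ D.U i → x ∈ D.U i' → h x ∈ N.U j → h x ∈ N.U j' →
      HolAt (Cm n) (u e i j) x ∧ u e i j x ≠ 0 ∧
        u e i j x * N.g j j' (h x) = ((jacM e e' x).det ^ m * D.g i i' x) ^ q * u e' i' j' x

end Vale.Agent.P281.R2.H73.D
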