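import Vale.Agent.P281.R2.H73.Stmt

/-!
# P281, R2: definitions of the final statement (4): families over hyperbolic bases
-/

open scoped Manifold ContDiff ComplexOrder Topology
open Vale.Agent.P281.FS (Cm Mfd Chart Form HolAt BigOpen IsRestr OrbMor Setup OrbLe kodF kodR
  kodX)

noncomputable section

namespace Vale.Agent.P281.R2.H73

open Vale.Agent.P272.K (At IsHermitian IsKahler cHess dz)
open Vale.Agent.P285.H281.FD (Bd IsLB IsMet)

section
variable (E E' : Type) [NormedAddCommGroup E] [NormedSpace ℂ E] [NormedAddCommGroup E']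
  [NormedSpace ℂ E'] {X B : Type} [TopologicalSpace X] [ChartedSpace E X] [TopologicalSpace B]
  [ChartedSpace E' B]

/-- `h : X → B` is a surjective holomorphic submersion -/
def Subm (h : X → B) : Prop :=
  ContMDiff 𝓘(ℂ, E) 𝓘(ℂ, E') ω h ∧ Function.Surjective h ∧
    ∀ x, Function.Surjective (mfderiv 𝓘(ℂ, E) 𝓘(ℂ, E') h x)

/-- near `x`, the function `f` is the `μ`-th power of a holomorphic function -/
def IsPow (μ : ℕ) (f : X → ℂ) (x : X) : Prop := ∃ u, HolAt E u x ∧ ∀ᶠ y in 𝓝 x, f y = u y ^ μ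

/-- near `x`, the function `f` is holomorphic and a unit times `g` -/
def IsUnitMul (f g : X → ℂ) (x : X) : Prop :=
  HolAt E f x ∧ ∃ u, HolAt E u x ∧ u x ≠ 0 ∧ ∀ᶠ y in 𝓝 x, f y = u y * g y

/-- The `s i` are local equations (in all charts) of effective divisors `D_i` on `B`, `μ i ≥ 1`,
`G : X → B` is holomorphic, `μ i ∣ G^*D_i` (or `G(X) ⊆ D_i`, locally), and every entire curve `g` in
`B` with image in `G(X)` which for each `i` is contained in `D_i` or satisfies `μ i ∣ g^*D_i` is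
constant. For `l = 0`: `G(X)` contains no nonconstant entire curve. -/
def ToOrbHyp {l : ℕ} (G : X → B) (s : Fin l → OpenPartialHomeomorph B E' → E' → ℂ)
    (μ : Fin l → ℕ) : Prop :=
  ContMDiff 𝓘(ℂ, E) 𝓘(ℂ, E') ω G ∧
  (∀ i, 1 ≤ μ i ∧ ∀ e ∈ atlas E' B,
    (∀ e' ∈ atlas E' B, ∀ v ∈ e.source, v ∈ e'.source →
      IsUnitMul E' (fun y => s i e (e y)) (fun y => s i e' (e' y)) v) ∧
    ∀ x, G x ∈ e.source → IsPow E (μ i) (fun y => s i e (e (G y))) x) ∧
  ∀ g : ℂ → B, MDifferentiable 𝓘(ℂ, ℂ) 𝓘(ℂ, E') g → (∀ z, g z ∈ Set.range G) →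
    (∀ i, (∀ z, ∀ e ∈ atlas E' B, g z ∈ e.source → s i e (e (g z)) = 0) ∨
      ∀ z, ∀ e ∈ atlas E' B, g z ∈ e.source → IsPow ℂ (μ i) (fun y => s i e (e (g y))) z) →
    ∀ z z', g z = g z'

/-- `X` is a complex manifold -/
def IsMan (X : Type) [TopologicalSpace X] [ChartedSpace E X] : Prop := IsManifold 𝓘(ℂ, E) ω X

end

/-- `u : X ⇢ W` is a meromorphic map, `dim W = dim X`, holomorphic on the open subset `Z` (embedded by
`j`) whose complement has codimension `≥ 2`, and submersive somewhere, and `u : (Z, Δ|_Z) → (W, Γ)` is a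
morphism of orbifolds in codimension one. -/
def IsOrbMap (E : Type) [NormedAddCommGroup E] [NormedSpace ℂ E] {X Z W : Type}
    [TopologicalSpace X] [ChartedSpace E X] [TopologicalSpace Z] [ChartedSpace E Z]
    [TopologicalSpace W] [ChartedSpace E W] (Δ : Set X → ℝ) (Γ : Set W → ℝ) (j : Z → X)
    (u : Z → W) : Prop :=
  BigOpen E j ∧ ContMDiff 𝓘(ℂ, E) 𝓘(ℂ, E) ω u ∧
    (∃ z, Function.Surjective (mfderiv 𝓘(ℂ, E) 𝓘(ℂ, E) u z)) ∧
    ∃ Δ' : Set Z → ℝ, IsRestr E Δ j Δ' ∧ OrbMor E E u Δ' Γ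

/-- The inequality `κ(X, K_X + Δ) ≥ κ(F, K_F + Δ|_F) + k` for the meromorphic map `f` (holomorphic on
`Z`) and the fibre `F`, and `k` is at least `κ(Y, K_Y + Γ)` and `κ(f₀ | Δ)` in the situations of
`OrbLe`. -/
def Holds (E E' E'' : Type) [NormedAddCommGroup E] [NormedSpace ℂ E] [NormedAddCommGroup E']
    [NormedSpace ℂ E'] [NormedAddCommGroup E''] [NormedSpace ℂ E''] {X Z Y F : Type}
    [TopologicalSpace X] [ChartedSpace E X] [TopologicalSpace Z] [ChartedSpace E Z]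
    [TopologicalSpace Y] [ChartedSpace E' Y] [TopologicalSpace F] [ChartedSpace E'' F]
    (Δ : Set X → ℝ) (j : Z → X) (f : Z → Y) (i : F → Z) (k : WithBot ℕ∞) : Prop :=
  Setup E E' E'' Δ j f i →
    kodR E E'' (fun t => j (i t)) Δ + k ≤ kodX E Δ ∧ OrbLe E E' Δ j f k

/-- Campana's inequality for all meromorphic maps `f` of `(X, Δ)` and all fibres `F` -/
def Campana (n : ℕ) {X : Type} [TopologicalSpace X] [Mfd n X] (Δ : Set X → ℝ) : Prop :=
  ∀ (p d : ℕ), n = p + d → ∀ (Z Y F : Type) [TopologicalSpace Z] [Mfd n Z] [TopologicalSpace Y]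
    [T2Space Y] [ConnectedSpace Y] [Mfd p Y] [TopologicalSpace F] [T2Space F] [CompactSpace F]
    [ConnectedSpace F] [Mfd d F] (j : Z → X) (f : Z → Y) (i : F → Z),
    Holds (Cm n) (Cm p) (Cm d) Δ j f i (kodF n p Δ j f)

/-- the line bundle `A` is isomorphic to `h^*N` -/
def IsoPull (n : ℕ) {X B : Type} [TopologicalSpace X] [Mfd n X] (h : X → B) (A : Bd X)
    (N : Bd B) : Prop :=
  ∃ u : A.ι → N.ι → X → ℂ, ∀ i i' j j' x, x ∈ A.U i → x ∈ A.U i' → h x ∈ N.U j → h x ∈ N.U j' →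
    HolAt (Cm n) (u i j) x ∧ u i j x ≠ 0 ∧ u i j x * N.g j j' (h x) = A.g i i' x * u i' j' x

/-- The line bundle `N` on `B` is positive relative to `G : B → V`: some metric of `N` has the
curvature form `θ` with `θ + C G^*a > 0` for a Hermitian metric `a` of `V` and a constant `C` (`J` is
the Jacobian matrix of `G`). -/
def RelPos (b r : ℕ) {B V : Type} [TopologicalSpace B] [Mfd b B] [TopologicalSpace V] [Mfd r V]
    (N : Bd B) (G : B → V) : Prop :=
  ∃ (a : Form r V) (ψ : N.ι → B → ℝ) (C : ℝ), IsHermitian a ∧ IsMet b N ψ ∧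
    ∀ i (e : Chart b B) (e' : Chart r V) z, At e z → z ∈ N.U i → At e' (G z) →
      ∀ J, J = (Matrix.of fun q j => dz j (fun y => e' (G (e.symm y)) q) (e z)) →
        (cHess (fun y => ψ i (e.symm y)) (e z) + (C : ℂ) •
          (J.transpose * a e' (e' (G z)) * J.map (starRingEnd ℂ))).PosDef

/-- `h : X → B` is a surjective holomorphic submersion onto the Kähler manifold `B`, `G : B → V` maps
`B` to a hyperbolic orbifold (`ToOrbHyp`), and `O(q m (K_X + Δ)) ≅ h^*N`, where `O(m Δ) = D` (with the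
canonical section `t`) and `N` is positive relative to `G`. -/
def OverHyp (n b r : ℕ) {X B V : Type} [TopologicalSpace X] [Mfd n X] [TopologicalSpace B]
    [Mfd b B] [TopologicalSpace V] [Mfd r V] {l : ℕ} (Δ : Set X → ℝ) (h : X → B) (G : B → V)
    (s : Fin l → Chart r V → Cm r → ℂ) (μ : Fin l → ℕ) : Prop :=
  Subm (Cm n) (Cm b) h ∧ (∃ w : Form b B, IsKahler w) ∧ ToOrbHyp (Cm b) (Cm r) G s μ ∧
    ∃ (m q : ℕ) (k : Set X → ℕ) (D : Bd X) (t : D.ι → X → ℂ) (N : Bd B), 1 ≤ m ∧ 1 ≤ q ∧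
      (∀ E, (k E : ℝ) = m * Δ E) ∧ DivB n k D t ∧ IsLB b N ∧
      IsoPull n h ((((Bd.can n X).pow m).mul D).pow q) N ∧ RelPos b r N G

end Vale.Agent.P281.R2.H73
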