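import Vale.Agent.P281.H723.FS.Defs

/-!
# P281, R2: Kodaira dimensions are at most the dimension
-/

open scoped Manifold ContDiff Topology
open Filter Set

set_option linter.all false

noncomputable section

namespace Vale.Agent.P281.R2.H73

open Vale.Agent.P281

lemma le_of_indep {n : ℕ} {X : Type} [TopologicalSpace X] [ChartedSpace (FS.Cm n) X]
    {s : ℕ → X → ℂ} {l : ℕ} {x : X} (h : FS.Indep (FS.Cm n) s l x) : l ≤ n := by
  set A : FS.Cm n →ₗ[ℂ] (Fin l → ℂ) := LinearMap.pi fun b : Fin l =>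
    ((FS.dif (FS.Cm n) (fun w => s (b + 1) w / s 0 w) x : FS.Cm n →L[ℂ] ℂ) : FS.Cm n →ₗ[ℂ] ℂ)
    with hA
  have hA' : Function.Surjective A := by
    intro y
    obtain ⟨ξ, hξ⟩ := h.2 y
    exact ⟨ξ, hξ⟩
  have h2 := LinearMap.finrank_le_finrank_of_surjective hA'
  simpa using h2

theorem kod_le_dim {n : ℕ} {X : Type} [TopologicalSpace X] [ChartedSpace (FS.Cm n) X] {ι : Type}
    (eqn : ι → X → (X → ℂ) → Prop) (c : ι → ℝ) : FS.kod (FS.Cm n) eqn c ≤ (n : WithBot ℕ∞) := by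
  unfold FS.kod
  refine iSup₂_le fun l hl => ?_
  obtain ⟨m, kk, s, z, -, -, -, -, h⟩ := hl
  exact_mod_cast le_of_indep h

theorem kodR_le_dim {n d : ℕ} {X F : Type} [TopologicalSpace X] [ChartedSpace (FS.Cm n) X]
    [TopologicalSpace F] [ChartedSpace (FS.Cm d) F] (ι : F → X) (Δ : Set X → ℝ) :
    FS.kodR (FS.Cm n) (FS.Cm d) ι Δ ≤ (d : WithBot ℕ∞) := kod_le_dim _ _

theorem kodF_le_dim {n p : ℕ} {X Y Z : Type} [TopologicalSpace X] [ChartedSpace (FS.Cm n) X]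
    [TopologicalSpace Y] [ChartedSpace (FS.Cm p) Y] [TopologicalSpace Z]
    [ChartedSpace (FS.Cm n) Z] (Δ : Set X → ℝ) (j : Z → X) (f : Z → Y) :
    FS.kodF n p Δ j f ≤ (p : WithBot ℕ∞) := by
  unfold FS.kodF FS.kodG
  refine iSup₂_le fun l hl => ?_
  obtain ⟨m, K, G, σ, y, -, -, -, -, -, -, h⟩ := hl
  exact_mod_cast le_of_indep h

/-- if `κ(X, K_X + Δ)` is maximal, the inequality holds for all fibrations -/
theorem ineq_of_max {n p d : ℕ} (hn : n = p + d) {X Y Z F : Type}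
    [TopologicalSpace X] [ChartedSpace (FS.Cm n) X]
    [TopologicalSpace Y] [ChartedSpace (FS.Cm p) Y] [TopologicalSpace Z]
    [ChartedSpace (FS.Cm n) Z] [TopologicalSpace F] [ChartedSpace (FS.Cm d) F]
    {Δ : Set X → ℝ} (j : Z → X) (f : Z → Y) (i : F → Z)
    (h : FS.kodX (FS.Cm n) Δ = n) :
    FS.kodR (FS.Cm n) (FS.Cm d) (fun t => j (i t)) Δ + FS.kodF n p Δ j f ≤
      FS.kodX (FS.Cm n) Δ := by
  rw [h]
  calc _ ≤ ((d : WithBot ℕ∞) + (p : WithBot ℕ∞)) := add_le_add (kodR_le_dim _ _) (kodF_le_dim _ _ _)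
    _ = (n : WithBot ℕ∞) := by
      rw [hn]
      push_cast
      rw [add_comm]

end Vale.Agent.P281.R2.H73
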