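import Vale.Agent.P281.R2.H73.Semi
import Vale.Agent.P281.R2.H73.Lc
import Vale.Agent.P281.R2.H73.DefsC
import Vale.Agent.P281.R2.H73.DefsH
import Vale.Agent.P281.R2.H73.Dim
import Vale.Agent.P281.R2.H73.Fam
import Vale.Agent.P281.R2.H877.Cov

/-!
# P281, R2: Campana's inequality for hyperbolic pairs and families over hyperbolic bases
-/

open scoped Manifold ContDiff Topology ComplexOrder
open Filter Set

set_option linter.all false

noncomputable section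

namespace Vale.Agent.P281.R2.H73.C

open Vale.Agent.P281 Vale.Agent.P285.H281.FD Vale.Agent.P272.K Vale.Agent.P285.H716.AB
open Vale.Agent.P285.H766.PB (pull)
open Vale.Agent.P285.H766.KN (triv isLB_triv)
open Vale.Agent.P285.R2.H80 (Positive Ample)
open Vale.Agent.P285.R2.H391 (isLB_mul isLB_pow isLB_can)
open Vale.Agent.P285.R5.H80 (BIso four_of_pull)
open Vale.Agent.P285.R5 (BdF)
open Vale.Agent.P285.R5.H391 (RelPositive Isomorphic)

/-- the line bundle in the notation of P285 -/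
def LB.bd {X : Type} (L : LB X) : Bd X := ⟨L.ι, L.U, L.g⟩

section
variable {n : ℕ} {X : Type} [TopologicalSpace X] [ChartedSpace (Cm n) X]
  [IsManifold 𝓘(ℂ, Cm n) ω X] {L : LB X}

lemma isLB_bd (h : IsLB (Cm n) L) : Vale.Agent.P285.H281.FD.IsLB n L.bd where
  isOpen := h.1
  cover := h.2.1
  holo i j e x he hi hj :=
    (Vale.Agent.P281.R2.H391.an_symm (h.2.2 i j j x hi hj hj).1 he).contDiffAt
  ne_zero i j x hi hj := (h.2.2 i j j x hi hj hj).2.1
  cocycle i j k x hi hj hk := (h.2.2 i j k x hi hj hk).2.2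

lemma isMet_bd {ψ : L.ι → X → ℝ} (h : IsMet (Cm n) L ψ) : Vale.Agent.P285.H281.FD.IsMet n L.bd ψ where
  smooth i e x he hi := (h i i x hi hi).2 e he.1 he.2
  change i j x hi hj := (h i j x hi hj).1

lemma divB_bd {k : Set X → ℕ} {t : L.ι → X → ℂ} (hL : IsLB (Cm n) L) (h : IsO (Cm n) k L t) :
    DivB n k L.bd t where
  lb := isLB_bd hL
  sec := by
    refine ⟨fun i e x he hi => ?_, fun i j x hi hj => (h.2 i j x hi hj).1⟩
    obtain ⟨-, T, g, u, -, hg, hu, -, hev⟩ := h.2 i i x hi hi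
    have hm : FS.HolAt (Cm n) (FS.mon T g k) x := by
      have h1 : ContMDiffAt 𝓘(ℂ, Cm n) 𝓘(ℂ, ℂ) ω (fun z => ∏ D ∈ T, g D z ^ k D) x :=
        contMDiffAt_finset_prod fun D hD => by
          obtain ⟨V, -, hxV, hV, -⟩ := hg D hD
          exact (hV x hxV).pow _
      exact h1
    have h2 : FS.HolAt (Cm n) (t i) x := (ContMDiffAt.mul hu hm).congr_of_eventuallyEq hev
    exact (Vale.Agent.P281.R2.H391.an_symm h2 he).contDiffAt
  ne := h.1
  loc i x hi := (h.2 i i x hi hi).2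

end

section
variable {b r : ℕ} {B V : Type}
  [TopologicalSpace B] [T2Space B] [CompactSpace B] [ChartedSpace (Cm b) B]
  [IsManifold 𝓘(ℂ, Cm b) ω B]
  [TopologicalSpace V] [T2Space V] [CompactSpace V] [ChartedSpace (Cm r) V]
  [IsManifold 𝓘(ℂ, Cm r) ω V] {G : B → V}

/-- the bound of the discs -/
theorem bdF_of (hG : ToOrbHyp (Cm b) (Cm r) G) {a : Chart r V → Cm r → Matrix (Fin r) (Fin r) ℂ}
    (ha : IsHermitian a) : ∃ M : ℝ, 0 < M ∧ BdF b G a M := by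
  obtain ⟨hGh, l, s, μ, hs, hμ, hcur⟩ := hG
  refine H73.bdF_of (s := s) (μ := μ) ⟨hGh, fun i => ⟨(hμ i).1, fun e he => ⟨hs i e he,
    (hμ i).2 e he⟩⟩, fun g hg hr hi => hcur g hg hr fun i => ?_⟩ ha
  rcases hi i with h1 | h1
  · exact Or.inl h1
  · refine Or.inr fun z e he hz => ⟨fun h0 => ?_, fun _ => h1 z e he hz⟩
    have := (hμ i).1
    omega

lemma relPositive_of {N : LB B} (H : RelPos b r N G) : RelPositive b r N.bd G := by
  obtain ⟨a, ψ, C, ha, hψ, H⟩ := H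
  refine ⟨a, ha, ψ, isMet_bd hψ, C, fun i e z he hi e' he' => ?_⟩
  have h1 := H i e e' z he hi he' _ rfl
  have h2 : Vale.Agent.P285.R5.H391.pullH G a e e' (e z) =
      ((Matrix.of fun q j => dz j (fun y => e' (G (e.symm y)) q) (e z)).transpose *
          a e' (e' (G z)) *
          (Matrix.of fun q j => dz j (fun y => e' (G (e.symm y)) q) (e z)).map
            (starRingEnd ℂ)) := by
    unfold Vale.Agent.P285.R5.H391.pullH
    rw [he.left_inv]
  rw [h2]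
  exact h1

end

section
variable {n b : ℕ} {X : Type} [TopologicalSpace X] [T2Space X] [CompactSpace X]
  [ConnectedSpace X] [ChartedSpace (Cm n) X] [IsManifold 𝓘(ℂ, Cm n) ω X]
  {w : Chart n X → Cm n → Matrix (Fin n) (Fin n) ℂ} {Δ : Set X → ℝ}

/-- `K_X + Δ` is semiample of Iitaka dimension `b` -/
theorem semi_of_overHyp (hn : 1 ≤ n) (hw : IsKahler w) (hΔ : FS.IsSNC (Cm n) Δ)
    (H : OverHyp n b Δ) :
    ∃ (m : ℕ) (k : Set X → ℕ) (D : Bd X) (t : D.ι → X → ℂ), 0 < m ∧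
      (∀ E, (k E : ℝ) = m * Δ E) ∧ DivB n k D t ∧ Semiample n (((Bd.can n X).pow m).mul D) ∧
      Vale.Agent.P285.H716.AB.KodGE n (((Bd.can n X).pow m).mul D) b := by
  obtain ⟨B, V, _, _, _, _, r, _, _, _, _, h, G, wB, m, q, k, D, t, N, u, mB, mV, hwB,
    ⟨hf, hsurj, hs⟩, hO, hm, hq, hk, hD, ht, hN, hP, hu⟩ := H
  haveI : IsManifold 𝓘(ℂ, Cm b) ω B := mB
  haveI : IsManifold 𝓘(ℂ, Cm r) ω V := mV
  have hDB := divB_bd hD ht
  have hNL := isLB_bd hN
  have hIso : Isomorphic n ((((Bd.can n X).pow m).mul D.bd).pow q) (pull h N.bd) := by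
    refine ⟨fun i j => u i.1 i.2 j, fun i j e x he hi hj => ?_, fun i j x hi hj => ?_,
      fun i i' j j' x hi hi' hj hj' => ?_⟩
    · exact (Vale.Agent.P281.R2.H391.an_symm (hu i.1 i.1 i.2 i.2 j j x hi.1 hi.1 hi.2 hi.2 hj hj).1
        he).contDiffAt
    · exact (hu i.1 i.1 i.2 i.2 j j x hi.1 hi.1 hi.2 hi.2 hj hj).2.1
    · exact (hu i.1 i'.1 i.2 i'.2 j j' x hi.1 hi'.1 hi.2 hi'.2 hj hj').2.2
  have hlc : Vale.Agent.P285.H281.FD.Lc n m D.bd t := lc_of_divB hΔ (by omega) hk hDB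
  have hsub : Vale.Agent.P285.R5.H391.IsSubm n b h := ⟨hf, hsurj, fun e e' x he he' =>
    Vale.Agent.P285.R5.H391.surj_charts hf (hs x) he he'⟩
  have hpos : Positive b N.bd := (Vale.Agent.P285.R6.H391.final6_of hn
    (Vale.Agent.P285.R6.r6t n r X V) hw hwB hsub hO.1
    (fun h' hh' => by
      obtain ⟨M, hM, hB⟩ := bdF_of hO hh'
      exact ⟨M, hM, fun k hk => hB (fun z => h (k z)) (Vale.Agent.P285.R5.H626.holOn_map hf hk)⟩)
    hm hDB.lb (Vale.Agent.P285.R6.H391.edat_lc hw hDB.lb hDB.sec hDB.ne hlc) hq hNL hIso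
    (relPositive_of hP)).1
  obtain ⟨u', hu'⟩ := hIso
  have h4 := four_of_pull hw (isLB_mul (isLB_pow isLB_can m) hDB.lb) hNL hsub.holo hsub.surjective
    hsub.submersive hq hu' hpos
  exact ⟨m, k, D.bd, t, by omega, hk, hDB, h4.2.2.1, h4.2.2.2.2.1.1⟩

/-- `κ(X, K_X + Δ) ≥ dim B` -/
theorem kodX_of_overHyp (hn : 1 ≤ n) (hw : IsKahler w) (hΔ : FS.IsSNC (Cm n) Δ)
    (H : OverHyp n b Δ) : ((b : ℕ) : WithBot ℕ∞) ≤ FS.kodX (Cm n) Δ := by
  obtain ⟨m, k, D, t, hm, hk, hD, -, hK⟩ := semi_of_overHyp hn hw hΔ H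
  exact b2 hD hm hk hK

/-- **Campana's inequality** -/
theorem campana_fam {p d : ℕ} {Z Y F : Type} [TopologicalSpace Z] [ChartedSpace (FS.Cm n) Z]
    [TopologicalSpace Y] [T2Space Y] [ConnectedSpace Y] [ChartedSpace (FS.Cm p) Y]
    [TopologicalSpace F] [T2Space F] [CompactSpace F] [ConnectedSpace F]
    [ChartedSpace (FS.Cm d) F] {j : Z → X} {f : Z → Y} {i : F → Z}
    (hn1 : 1 ≤ n) (hn : n = p + d) (hw : IsKahler w) (hΔ : FS.IsSNC (Cm n) Δ)
    (H : OverHyp n b Δ) (hi : FS.Setup (Cm n) (Cm p) (Cm d) Δ j f i) :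
    FS.kodR (Cm n) (Cm d) (fun t => j (i t)) Δ + FS.kodF n p Δ j f ≤ FS.kodX (Cm n) Δ := by
  obtain ⟨m, k, D, t, hm, hk, hD, hS, -⟩ := semi_of_overHyp hn1 hw hΔ H
  exact campana_semi hn hw hi hD hk hm hS

end

end Vale.Agent.P281.R2.H73.C
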