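import Vale.Agent.P281.R2.H73.FamC

/-!
# P281, R2: hyperbolic pairs and families over hyperbolic bases, the final statement
-/

open scoped Manifold ContDiff
open Vale.Agent.P281.FS

set_option linter.all false

noncomputable section

namespace Vale.Agent.P281.R2.H73.C

open Vale.Agent.P285.LK (IsSNCDivisor OrbifoldBrody)

/-- the bridge: local equations of a reduced simple normal crossings divisor -/
def SncRow (n : ℕ) (X : Type) [TopologicalSpace X] [Mfd n X] : Prop :=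
  ∀ (l : ℕ) (s : Fin l → OpenPartialHomeomorph X (Cm n) → Cm n → ℂ), IsEqs (Cm n) s →
    (∀ e ∈ atlas (Cm n) X, ∀ x ∈ e.source,
      LinearIndependent ℂ fun i : {i : Fin l // s i e (e x) = 0} =>
        dif (Cm n) (fun y => s i.1 e (e y)) x) →
    ∃ (ψ : Fin l → Chart n X → Cm n → ℝ) (c : Fin l → Form n X), IsSNCDivisor s ψ c

section
variable {n : ℕ} {X : Type} [TopologicalSpace X] [T2Space X] [CompactSpace X] [ConnectedSpace X]
  [Mfd n X] [IsManifold 𝓘(ℂ, Cm n) ω X] {Δ : Set X → ℝ}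

theorem kodX_of_orbHyp (hrow : SncRow n X) (h1 : 1 ≤ n) {w : Form n X}
    (hw : Vale.Agent.P272.K.IsKahler w) (hΔ : IsSNC (Cm n) Δ) (H : OrbHyp (Cm n) Δ) :
    kodX (Cm n) Δ = n := by
  obtain ⟨l, s, μ, hs, hn, hμ, hcur⟩ := H
  obtain ⟨ψ, c, hS⟩ := hrow l s hs hn
  have hb2 : Vale.Agent.P281.R2.H391.B2 n X := fun Δ kk m L t r hD hm hk hK =>
    Vale.Agent.P281.R2.H73.b2 hD hm hk hK
  refine Vale.Agent.P281.R2.H391.kodX_orb Vale.Agent.P281.R2.H391.b1 hb2 h1 hw hS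
    (fun i => (hμ i).1) (fun g hg hi => hcur g hg (fun _ => trivial) fun i => ?_) hΔ fun i => ?_
  · rcases hi i with h2 | h2
    · exact Or.inl fun z e he hz => h2 z e ⟨he, hz⟩
    · refine Or.inr fun z e he hz => ⟨(h2 z e ⟨he, hz⟩).1, fun h3 => ?_⟩
      obtain ⟨u, hu, hev⟩ := (h2 z e ⟨he, hz⟩).2 h3
      exact ⟨u, hu.contDiffAt.contMDiffAt, hev⟩
  · have h2 : {x | ∀ e ∈ atlas (Cm n) X, x ∈ e.source → s i e (e x) = 0} =
        Vale.Agent.P281.R2.H391.ZD (s i) :=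
      Set.ext fun x => ⟨fun h e he => h e he.1 he.2, fun h e he hx => h e ⟨he, hx⟩⟩
    rw [← h2]
    exact (hμ i).2

end

theorem main_of {n b : ℕ} (h1 : 1 ≤ n) {X X' Z' : Type}
    [TopologicalSpace X] [T2Space X] [CompactSpace X] [ConnectedSpace X] [Mfd n X]
    [IsManifold 𝓘(ℂ, Cm n) ω X]
    [TopologicalSpace X'] [T2Space X'] [CompactSpace X'] [ConnectedSpace X'] [Mfd n X']
    [IsManifold 𝓘(ℂ, Cm n) ω X'] [TopologicalSpace Z'] [Mfd n Z'] [IsManifold 𝓘(ℂ, Cm n) ω Z']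
    (hrow : SncRow n X)
    {w : Form n X} (hw : Vale.Agent.P272.K.IsKahler w) {Δ : Set X → ℝ} (hΔ : IsSNC (Cm n) Δ)
    (H : b = n ∧ OrbHyp (Cm n) Δ ∨ OverHyp n b Δ) :
    b ≤ kodX (Cm n) Δ ∧ Campana n Δ ∧
    (b = n → ∀ (Δ' : Set X' → ℝ) (j : Z' → X') (u : Z' → X), IsSNC (Cm n) Δ' →
      IsOrbMap (Cm n) Δ' Δ j u → kodX (Cm n) Δ' = n ∧ Campana n Δ') := by
  have hX : ((b : ℕ) : WithBot ℕ∞) ≤ kodX (Cm n) Δ := by
    rcases H with ⟨hb, H⟩ | H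
    · rw [hb]
      exact (kodX_of_orbHyp hrow h1 hw hΔ H).ge
    · exact kodX_of_overHyp h1 hw hΔ H
  refine ⟨hX, fun p d hn Z Y F _ _ _ _ _ _ _ _ _ _ _ j f i hi => ⟨?_, orb_of Δ j f i hi⟩,
    fun hb Δ' j' u hΔ' hu => ?_⟩
  · rcases H with ⟨hb, H⟩ | H
    · exact ineq_of_max hn j f i (kodX_of_orbHyp hrow h1 hw hΔ H)
    · exact campana_fam h1 hn hw hΔ H hi
  obtain ⟨hj, hu, hs, Δ₁, hr, hm⟩ := hu
  have hX' : kodX (Cm n) Δ' = n := by
    refine le_antisymm (Vale.Agent.P281.R2.H391.kodX_le Δ') ?_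
    rw [hb] at hX
    exact hX.trans (Vale.Agent.P281.R2.H877.kodX_le_of_orbMor hΔ' hj hu hs hr hΔ hm)
  exact ⟨hX', fun p d hn Z Y F _ _ _ _ _ _ _ _ _ _ _ j f i hi =>
    ⟨ineq_of_max hn j f i hX', orb_of Δ' j f i hi⟩⟩

end Vale.Agent.P281.R2.H73.C
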