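import Vale.Agent.P281.R2.H73.FamC2
import Vale.Agent.P281.R2.H877.OrbC

/-!
# P281, R2: hyperbolic pairs and families over hyperbolic bases, the theorem
-/

open scoped Manifold ContDiff
open Vale.Agent.P281.FS

set_option linter.all false

noncomputable section

namespace Vale.Agent.P281.R2.H73.C

theorem sncRow (n : ℕ) (X : Type) [TopologicalSpace X] [T2Space X] [CompactSpace X]
    [ConnectedSpace X] [Mfd n X] [IsManifold 𝓘(ℂ, Cm n) ω X] : SncRow n X := fun _ _ hs hn =>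
  Vale.Agent.P281.R2.H877.OC.snc_of hs hn

theorem main {n b : ℕ} (h1 : 1 ≤ n) {X X' Z' : Type}
    [TopologicalSpace X] [T2Space X] [CompactSpace X] [ConnectedSpace X] [Mfd n X]
    [TopologicalSpace X'] [T2Space X'] [CompactSpace X'] [ConnectedSpace X'] [Mfd n X']
    [TopologicalSpace Z'] [Mfd n Z'] (mX : IsMan (Cm n) X) (mX' : IsMan (Cm n) X')
    (mZ' : IsMan (Cm n) Z') (w : Form n X) (hw : Vale.Agent.P272.K.IsKahler w) (Δ : Set X → ℝ)
    (hΔ : IsSNC (Cm n) Δ) (H : b = n ∧ OrbHyp (Cm n) Δ ∨ OverHyp n b Δ) :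
    b ≤ kodX (Cm n) Δ ∧ Campana n Δ ∧
    (b = n → ∀ (Δ' : Set X' → ℝ) (j : Z' → X') (u : Z' → X), IsSNC (Cm n) Δ' →
      IsOrbMap (Cm n) Δ' Δ j u → kodX (Cm n) Δ' = n ∧ Campana n Δ') := by
  haveI : IsManifold 𝓘(ℂ, Cm n) ω X := mX
  haveI : IsManifold 𝓘(ℂ, Cm n) ω X' := mX'
  haveI : IsManifold 𝓘(ℂ, Cm n) ω Z' := mZ'
  exact main_of h1 (sncRow n X) hw hΔ H

end Vale.Agent.P281.R2.H73.C
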