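import Vale.Agent.P281.R2.H73.FamC3
import Vale.Agent.P281.R2.H73.DefsD
import Vale.Agent.P285.R8.H626.Big
import Vale.Agent.P285.R7.H391.RelNef
import Vale.Agent.P285.R5.H391.Pull

/-!
# P281, R2: Campana's inequality for families over hyperbolic bases, relatively nef and big
-/

open scoped Manifold ContDiff Topology ComplexOrder
open Filter Set

set_option linter.all false

noncomputable section

namespace Vale.Agent.P281.R2.H73.D

open Vale.Agent.P281 Vale.Agent.P285.H281.FD Vale.Agent.P272.K Vale.Agent.P285.H716.AB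
open Vale.Agent.P285.R2.H80 (Positive Ample)
open Vale.Agent.P285.R2.H391 (isLB_mul isLB_pow isLB_can)
open Vale.Agent.P285.R5.H80 (BIso four_of_pull isMet_root isLB_self)
open Vale.Agent.P285.R5 (BdF)
open Vale.Agent.P285.R5.H391 (RelPositive)
open Vale.Agent.P281.R2.H73.C (LB ToOrbHyp isLB_bd isMet_bd divB_bd Subm)

section
variable {b r : ℕ} {B V : Type}
  [TopologicalSpace B] [T2Space B] [CompactSpace B] [ChartedSpace (Cm b) B]
  [IsManifold 𝓘(ℂ, Cm b) ω B]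
  [TopologicalSpace V] [T2Space V] [CompactSpace V] [ChartedSpace (Cm r) V]
  [IsManifold 𝓘(ℂ, Cm r) ω V] {G : B → V}
  {w : Chart b B → Cm b → Matrix (Fin b) (Fin b) ℂ}

lemma pullH_eq {a : Chart r V → Cm r → Matrix (Fin r) (Fin r) ℂ} {e : Chart b B} {e' : Chart r V}
    {z : B} (he : At e z) :
    Vale.Agent.P285.R5.H391.pullH G a e e' (e z) =
      ((Matrix.of fun q j => dz j (fun y => e' (G (e.symm y)) q) (e z)).transpose *
          a e' (e' (G z)) *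
          (Matrix.of fun q j => dz j (fun y => e' (G (e.symm y)) q) (e z)).map
            (starRingEnd ℂ)) := by
  unfold Vale.Agent.P285.R5.H391.pullH
  rw [he.left_inv]

lemma relPositive_of (hw : IsKahler w) {N : LB B} (H : RelPos r w N G) :
    RelPositive b r N.bd G := by
  obtain ⟨a, ψ, C, ε, ha, hε, hψ, H⟩ := H
  refine ⟨a, ha, ψ, isMet_bd hψ, C, fun i e z he hi e' he' => ?_⟩
  have h1 := H i e e' z he hi he' _ rfl
  rw [pullH_eq he]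
  have h2 := Matrix.PosDef.posSemidef_add h1 (posDef_ofReal_smul (hw.posDef e z he) hε)
  have h3 : ∀ M W : Matrix (Fin b) (Fin b) ℂ, M + ((-ε : ℝ) : ℂ) • W + (ε : ℂ) • W = M := by
    intro M W
    rw [add_assoc, ← add_smul]
    simp
  rw [h3] at h2
  exact h2

/-- the dual factor: `N^k ⊗ A⁻¹` -/
def quo (N A : LB B) (k : ℕ) : Bd B where
  ι := N.ι × A.ι
  U i := N.U i.1 ∩ A.U i.2
  g i j x := N.g i.1 j.1 x ^ k * (A.g i.2 j.2 x)⁻¹

lemma relBig_of (hw : IsKahler w) {N : LB B} (hN : C.IsLB (Cm b) N) (H : RelBig r w N G) :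
    Vale.Agent.P285.R8.H626.RelBig b r N.bd G := by
  obtain ⟨k, A, s, hk, hA, hP, ⟨x₀, h0⟩, hs⟩ := H
  have hNb := isLB_bd hN
  have hAb := isLB_bd hA
  have hQ : IsLB b (quo N A k) := by
    refine ⟨fun i => (hN.1 i.1).inter (hA.1 i.2), fun x => ?_, fun i j e x he hi hj => ?_,
      fun i j x hi hj => ?_, fun i j l x hi hj hl => ?_⟩
    · obtain ⟨i, hi⟩ := hN.2.1 x
      obtain ⟨j, hj⟩ := hA.2.1 x
      exact ⟨(i, j), hi, hj⟩
    · have h1 := hNb.holo i.1 j.1 e x he hi.1 hj.1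
      have h2 := hAb.holo i.2 j.2 e x he hi.2 hj.2
      refine (h1.pow k).mul (h2.inv ?_)
      rw [e.left_inv he.2]
      exact hAb.ne_zero i.2 j.2 x hi.2 hj.2
    · exact mul_ne_zero (pow_ne_zero _ (hNb.ne_zero _ _ x hi.1 hj.1))
        (inv_ne_zero (hAb.ne_zero _ _ x hi.2 hj.2))
    · show N.g i.1 j.1 x ^ k * (A.g i.2 j.2 x)⁻¹ * (N.g j.1 l.1 x ^ k * (A.g j.2 l.2 x)⁻¹) =
        N.g i.1 l.1 x ^ k * (A.g i.2 l.2 x)⁻¹
      have h1 : N.g i.1 j.1 x * N.g j.1 l.1 x = N.g i.1 l.1 x := hNb.cocycle _ _ _ x hi.1 hj.1 hl.1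
      have h2 : A.g i.2 j.2 x * A.g j.2 l.2 x = A.g i.2 l.2 x := hAb.cocycle _ _ _ x hi.2 hj.2 hl.2
      rw [← h1, ← h2, mul_pow, mul_inv]
      ring
  refine ⟨k, hk, A.bd, quo N A k, hAb, hQ, ⟨fun i j x => N.g i j.2.1 x ^ k * (A.g j.1 j.2.2 x)⁻¹,
    fun i j e x he hi hj => ?_, fun i j x hi hj => ?_, fun i i' j j' x hi hi' hj hj' => ?_⟩,
    relPositive_of hw hP, fun i x => s i.1 i.2 x, ⟨fun i e x he hi => ?_, fun i j x hi hj => ?_⟩,
    x₀, fun i hi => h0 i.1 i.2 hi.1 hi.2⟩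
  · have h1 := hNb.holo i j.2.1 e x he hi hj.2.1
    have h2 := hAb.holo j.1 j.2.2 e x he hj.1 hj.2.2
    refine (h1.pow k).mul (h2.inv ?_)
    rw [e.left_inv he.2]
    exact hAb.ne_zero j.1 j.2.2 x hj.1 hj.2.2
  · exact mul_ne_zero (pow_ne_zero _ (hNb.ne_zero _ _ x hi hj.2.1))
      (inv_ne_zero (hAb.ne_zero _ _ x hj.1 hj.2.2))
  · show N.g i j.2.1 x ^ k * (A.g j.1 j.2.2 x)⁻¹ *
        (A.g j.1 j'.1 x * (N.g j.2.1 j'.2.1 x ^ k * (A.g j.2.2 j'.2.2 x)⁻¹)) =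
      N.g i i' x ^ k * (N.g i' j'.2.1 x ^ k * (A.g j'.1 j'.2.2 x)⁻¹)
    have h1 : N.g i j.2.1 x * N.g j.2.1 j'.2.1 x = N.g i j'.2.1 x :=
      hNb.cocycle _ _ _ x hi hj.2.1 hj'.2.1
    have h2 : N.g i i' x * N.g i' j'.2.1 x = N.g i j'.2.1 x := hNb.cocycle _ _ _ x hi hi' hj'.2.1
    have h3 : A.g j.1 j.2.2 x * A.g j.2.2 j'.2.2 x = A.g j.1 j'.2.2 x :=
      hAb.cocycle _ _ _ x hj.1 hj.2.2 hj'.2.2
    have h4 : A.g j.1 j'.1 x * A.g j'.1 j'.2.2 x = A.g j.1 j'.2.2 x :=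
      hAb.cocycle _ _ _ x hj.1 hj'.1 hj'.2.2
    have n1 : A.g j.1 j.2.2 x ≠ 0 := hAb.ne_zero _ _ x hj.1 hj.2.2
    have n2 : A.g j.2.2 j'.2.2 x ≠ 0 := hAb.ne_zero _ _ x hj.2.2 hj'.2.2
    have n3 : A.g j'.1 j'.2.2 x ≠ 0 := hAb.ne_zero _ _ x hj'.1 hj'.2.2
    have h5 : N.g i j.2.1 x ^ k * N.g j.2.1 j'.2.1 x ^ k = N.g i i' x ^ k * N.g i' j'.2.1 x ^ k := by
      rw [← mul_pow, ← mul_pow, h1, h2]
    have h6 : (A.g j.1 j.2.2 x)⁻¹ * A.g j.1 j'.1 x * (A.g j.2.2 j'.2.2 x)⁻¹ =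
        (A.g j'.1 j'.2.2 x)⁻¹ := by
      field_simp
      rw [h4, h3]
    calc _ = (N.g i j.2.1 x ^ k * N.g j.2.1 j'.2.1 x ^ k) *
          ((A.g j.1 j.2.2 x)⁻¹ * A.g j.1 j'.1 x * (A.g j.2.2 j'.2.2 x)⁻¹) := by ring
      _ = _ := by rw [h5, h6]; ring
  · exact (Vale.Agent.P281.R2.H391.an_symm (hs i.1 i.1 i.2 i.2 x hi.1 hi.1 hi.2 hi.2).1 he).contDiffAt
  · show s i.1 i.2 x = N.g i.1 j.1 x ^ k * (A.g i.2 j.2 x)⁻¹ * s j.1 j.2 x
    have h1 := (hs i.1 j.1 i.2 j.2 x hi.1 hj.1 hi.2 hj.2).2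
    have n1 : A.g i.2 j.2 x ≠ 0 := hAb.ne_zero _ _ x hi.2 hj.2
    field_simp
    rw [h1]

/-- the nefness relative to `G` of a line bundle with a power isomorphic to `P` -/
lemma relNef_of {P : LB B} {L : Bd B} {q : ℕ} (hq : 1 ≤ q) (hL : IsLB b (L.pow q))
    (hP : IsLB b P.bd) {u : (L.pow q).ι → P.bd.ι → B → ℂ} (hu : BIso b (L.pow q) P.bd u)
    (H : RelNef r w P G) : Vale.Agent.P285.R7.H80.RelNef r w L G := by
  obtain ⟨a, ha, H⟩ := H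
  refine ⟨a, ha, fun ε hε => ?_⟩
  have hq' : (0 : ℝ) < q := by exact_mod_cast hq
  obtain ⟨ψ, C, hψ, H⟩ := H (q * ε) (by positivity)
  have hψb := isMet_bd hψ
  have hm := hu.isMet_met hL hP hψb
  refine ⟨C / q, fun i x => (1 / q : ℝ) * BIso.met hP u ψ i x, isMet_root hq hm,
    fun i e x he hi e' he' => ?_⟩
  obtain ⟨j, hj⟩ := hP.cover x
  have h1 := H j e e' x he hj he' _ rfl
  have hc : cHess (fun z => (1 / q : ℝ) * BIso.met hP u ψ i (e.symm z)) (e x) =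
      ((1 / q : ℝ) : ℂ) • cHess (fun z => ψ j (e.symm z)) (e x) := by
    rw [cHess_const_mul _ ((hm.smooth i e x he hi).of_le (by norm_cast)),
      hu.cHess_met hL hP hψb he hi hj]
  rw [hc, pullH_eq he]
  have h2 := posSemidef_ofReal_smul h1 (show (0 : ℝ) ≤ 1 / q by positivity)
  have hq0 : (q : ℂ) ≠ 0 := by exact_mod_cast hq'.ne'
  convert h2 using 1
  rw [smul_add, smul_add, smul_smul, smul_smul]
  congr 2
  · congr 1
    push_cast
    field_simp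
  · push_cast
    field_simp

end

section
variable {n b : ℕ} {X : Type} [TopologicalSpace X] [T2Space X] [CompactSpace X]
  [ConnectedSpace X] [ChartedSpace (Cm n) X] [IsManifold 𝓘(ℂ, Cm n) ω X]
  {w : Chart n X → Cm n → Matrix (Fin n) (Fin n) ℂ} {Δ : Set X → ℝ}

/-- `K_X + Δ` is semiample or `b = n`, and of Iitaka dimension `≥ b` -/
theorem semi_of_overHyp (hn : 1 ≤ n) (hw : IsKahler w) (hΔ : FS.IsSNC (Cm n) Δ)
    (H : OverHyp n b w Δ) :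
    ∃ (m : ℕ) (k : Set X → ℕ) (D : Bd X) (t : D.ι → X → ℂ), 0 < m ∧
      (∀ E, (k E : ℝ) = m * Δ E) ∧ DivB n k D t ∧
      (Semiample n (((Bd.can n X).pow m).mul D) ∨ b = n) ∧
      Vale.Agent.P285.H716.AB.KodGE n (((Bd.can n X).pow m).mul D) b := by
  obtain ⟨B, V, _, _, _, _, r, _, _, _, _, h, G, wB, m, q, k, D, t, N, u, mB, mV, hwB,
    ⟨hf, hsurj, hs⟩, hO, hm, hq, hk, hD, ht, hN, hP, hu⟩ := H
  haveI : IsManifold 𝓘(ℂ, Cm b) ω B := mB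
  haveI : IsManifold 𝓘(ℂ, Cm r) ω V := mV
  have hDB := divB_bd hD ht
  have hNL := isLB_bd hN
  have hIso : BIso n ((((Bd.can n X).pow m).mul D.bd).pow q)
      (Vale.Agent.P285.H766.PB.pull h N.bd) (fun i j => u i.1 i.2 j) := by
    refine ⟨fun i j e x he hi hj => ?_, fun i j x hi hj => ?_,
      fun i i' j j' x hi hi' hj hj' => ?_⟩
    · exact (Vale.Agent.P281.R2.H391.an_symm (hu i.1 i.1 i.2 i.2 j j x hi.1 hi.1 hi.2 hi.2 hj hj).1
        he).contDiffAt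
    · exact (hu i.1 i.1 i.2 i.2 j j x hi.1 hi.1 hi.2 hi.2 hj hj).2.1
    · exact (hu i.1 i'.1 i.2 i'.2 j j' x hi.1 hi'.1 hi.2 hi'.2 hj hj').2.2
  have hlc : Vale.Agent.P285.H281.FD.Lc n m D.bd t := lc_of_divB hΔ (by omega) hk hDB
  have hsub : Vale.Agent.P285.R5.H391.IsSubm n b h := ⟨hf, hsurj, fun e e' x he he' =>
    Vale.Agent.P285.R5.H391.surj_charts hf (hs x) he he'⟩
  have hdat := Vale.Agent.P285.R6.H391.edat_lc hw hDB.lb hDB.sec hDB.ne hlc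
  have hBd : ∀ h' : Chart r V → Cm r → Matrix (Fin r) (Fin r) ℂ, IsHermitian h' →
      ∃ B₀ : ℝ, 0 < B₀ ∧ BdF n (fun x => G (h x)) h' B₀ := fun h' hh' => by
    obtain ⟨M, hM, hB⟩ := C.bdF_of hO hh'
    exact ⟨M, hM, fun k hk => hB (fun z => h (k z)) (Vale.Agent.P285.R5.H626.holOn_map hf hk)⟩
  have hLB : IsLB n (((Bd.can n X).pow m).mul D.bd) := isLB_mul (isLB_pow isLB_can m) hDB.lb
  refine ⟨m, k, D.bd, t, by omega, hk, hDB, ?_⟩
  rcases hP with hP | ⟨hb, hbig, hnef⟩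
  · have hpos : Positive b N.bd := (Vale.Agent.P285.R6.H391.final6_of hn
      (Vale.Agent.P285.R6.r6t n r X V) hw hwB hsub hO.1 hBd
      hm hDB.lb hdat hq hNL ⟨_, hIso.1, hIso.2, hIso.3⟩
      (relPositive_of hwB hP)).1
    have h4 := four_of_pull hw hLB hNL hsub.holo hsub.surjective hsub.submersive hq hIso hpos
    exact ⟨Or.inl h4.2.2.1, h4.2.2.2.2.1.1⟩
  · have hG : ContMDiff 𝓘(ℂ, Cm n) 𝓘(ℂ, Cm r) ω (fun x => G (h x)) := hO.1.comp hf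
    have hpl : IsLB n (pull h N).bd := Vale.Agent.P285.R5.H391.isLB_pull hf hNL
    have hrel := relNef_of (P := pull h N) hq (isLB_pow hLB q) hpl hIso hnef
    have hN' := Vale.Agent.P285.R7.H391.nef_of_relNef hn (Vale.Agent.P285.R6.r6t n r X V) hw hG hBd
      hm hDB.lb hdat hrel
    have hK := (Vale.Agent.P285.R8.H626.big_of hn (Vale.Agent.P285.R6.r6t n r X V) hw hwB hsub hO.1
      hBd hm hDB.lb hdat hN' hq hNL ⟨_, hIso.1, hIso.2, hIso.3⟩ (relBig_of hwB hN hbig)).1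
    exact ⟨Or.inr hb, hK.1⟩

end

end Vale.Agent.P281.R2.H73.D
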