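import Vale.Agent.P281.R2.H73.FamD

/-!
# P281, R2: families over hyperbolic bases, relatively positive or relatively nef and big, the theorem
-/

open scoped Manifold ContDiff
open Vale.Agent.P281.FS

set_option linter.all false

noncomputable section

namespace Vale.Agent.P281.R2.H73.D

theorem main {n b : ℕ} (h1 : 1 ≤ n) {X X' Z' : Type}
    [TopologicalSpace X] [T2Space X] [CompactSpace X] [ConnectedSpace X] [Mfd n X]
    [TopologicalSpace X'] [T2Space X'] [CompactSpace X'] [ConnectedSpace X'] [Mfd n X']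
    [TopologicalSpace Z'] [Mfd n Z'] (mX : C.IsMan (Cm n) X) (mX' : C.IsMan (Cm n) X')
    (mZ' : C.IsMan (Cm n) Z') (w : Form n X) (hw : Vale.Agent.P272.K.IsKahler w) (Δ : Set X → ℝ)
    (hΔ : IsSNC (Cm n) Δ) (H : b = n ∧ C.OrbHyp (Cm n) Δ ∨ OverHyp n b w Δ) :
    b ≤ kodX (Cm n) Δ ∧ C.Campana n Δ ∧
    (b = n → ∀ (Δ' : Set X' → ℝ) (j : Z' → X') (u : Z' → X), IsSNC (Cm n) Δ' →
      C.IsOrbMap (Cm n) Δ' Δ j u → kodX (Cm n) Δ' = n ∧ C.Campana n Δ') := by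
  haveI : IsManifold 𝓘(ℂ, Cm n) ω X := mX
  haveI : IsManifold 𝓘(ℂ, Cm n) ω X' := mX'
  haveI : IsManifold 𝓘(ℂ, Cm n) ω Z' := mZ'
  have hX : ((b : ℕ) : WithBot ℕ∞) ≤ kodX (Cm n) Δ := by
    rcases H with ⟨hb, H⟩ | H
    · rw [hb]
      exact (C.kodX_of_orbHyp (C.sncRow n X) h1 hw hΔ H).ge
    · obtain ⟨m, k, D, t, hm, hk, hD, -, hK⟩ := semi_of_overHyp h1 hw hΔ H
      exact b2 hD hm hk hK
  have hmax : b = n → kodX (Cm n) Δ = n := fun hb =>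
    le_antisymm (Vale.Agent.P281.R2.H391.kodX_le Δ) (by rw [hb] at hX; exact hX)
  refine ⟨hX, fun p d hn Z Y F _ _ _ _ _ _ _ _ _ _ _ j f i hi => ⟨?_, orb_of Δ j f i hi⟩,
    fun hb Δ' j' u hΔ' hu => ?_⟩
  · rcases H with ⟨hb, H⟩ | H
    · exact ineq_of_max hn j f i (hmax hb)
    · obtain ⟨m, k, D, t, hm, hk, hD, hS, -⟩ := semi_of_overHyp h1 hw hΔ H
      rcases hS with hS | hb
      · exact campana_semi hn hw hi hD hk hm hS
      · exact ineq_of_max hn j f i (hmax hb)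
  obtain ⟨hj, hu, hs, Δ₁, hr, hm⟩ := hu
  have hX' : kodX (Cm n) Δ' = n := by
    refine le_antisymm (Vale.Agent.P281.R2.H391.kodX_le Δ') ?_
    rw [hb] at hX
    exact hX.trans (Vale.Agent.P281.R2.H877.kodX_le_of_orbMor hΔ' hj hu hs hr hΔ hm)
  exact ⟨hX', fun p d hn Z Y F _ _ _ _ _ _ _ _ _ _ _ j f i hi =>
    ⟨ineq_of_max hn j f i hX', orb_of Δ' j f i hi⟩⟩

end Vale.Agent.P281.R2.H73.D
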