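import Vale.Agent.P281.H723.FS.Defs

/-!
# P281, R2: the inequality
-/

open Vale.Agent.P281.FS

noncomputable section

namespace Vale.Agent.P281.R2.H73.HY

/-- the inequality `κ(X, K_X + Δ) ≥ κ(F, K_F + Δ|_F) + k`, where `k` is `kodF` -/
def Ineq (n p d : ℕ) {X Z Y F : Type} [TopologicalSpace X] [Mfd n X] [TopologicalSpace Z] [Mfd n Z]
    [TopologicalSpace Y] [Mfd p Y] [TopologicalSpace F] [Mfd d F] (Δ : Set X → ℝ) (j : Z → X)
    (f : Z → Y) (i : F → Z) : Prop :=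
  kodR (Cm n) (Cm d) (fun t => j (i t)) Δ + kodF n p Δ j f ≤ kodX (Cm n) Δ

end Vale.Agent.P281.R2.H73.HY
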