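import Vale.Agent.P281.R2.H73.Bun
import Vale.Agent.P281.R2.H877.B3
import Vale.Agent.P281.H723.FS.Fin
import Vale.Agent.P281.H716.LC.Fin

/-!
# P281, R2: Campana's inequality for pairs with `K_X + Δ` semiample
-/

open scoped Manifold ContDiff Topology ComplexOrder
open Filter Set

set_option linter.all false

noncomputable section

namespace Vale.Agent.P281.R2.H73

open Vale.Agent.P281 Vale.Agent.P285.H281.FD Vale.Agent.P272.K
open Vale.Agent.P281.H716 Vale.Agent.P281.H716.IsSys Vale.Agent.P281.H949.SA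

section
variable {n : ℕ} {X : Type} [TopologicalSpace X] [ChartedSpace (Cm n) X]
  [IsManifold 𝓘(ℂ, Cm n) ω X] {k : Set X → ℕ} {L : Bd X} {t : L.ι → X → ℂ} {m K : ℕ}

/-- the local expression of all sections -/
theorem val_rep (h : DivB n k L t) (hK : 1 ≤ K) (z₀ : X) :
    ∃ (T : Finset (Set X)) (e : Set X → X → ℂ) (u : X → ℂ) (i : L.ι), (∀ D, k D ≠ 0 → D ∈ T) ∧
      (∀ D ∈ T, FS.Eqn (Cm n) D (e D) z₀) ∧ z₀ ∈ L.U i ∧ HolV (Cm n) u z₀ ∧ u z₀ ≠ 0 ∧
      ∀ σ : (((Bd.can n X).pow m).mul L).ι → X → ℂ,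
        IsSec n ((((Bd.can n X).pow m).mul L).pow K) σ →
        HolV (Cm n) (fun z => σ (chartAt (Cm n) z₀, i) z / u z ^ K) z₀ ∧
        ∀ᶠ z in 𝓝 z₀, FS.mon T e (fun D => K * k D) z ≠ 0 →
          val h m K σ z * FS.mon T e (fun D => K * k D) z =
            σ (chartAt (Cm n) z₀, i) z / u z ^ K * FS.jac (Cm n) z₀ z ^ (m * K) := by
  have hc : At (chartAt (Cm n) z₀) z₀ := at_chartAt' z₀
  set c : Chart n X := chartAt (Cm n) z₀ with hcd
  have hi := mem_ixL h.lb z₀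
  set i := ixL h.lb z₀ with hid
  obtain ⟨T, e, u, hkT, he, hu, hu0, hev⟩ := h.loc i z₀ hi
  have hu' : HolV (Cm n) u z₀ := hu
  refine ⟨T, e, u, i, hkT, he, hi, hu', hu0, fun σ hσ => ⟨?_, ?_⟩⟩
  · have h1 : HolV (Cm n) (σ (c, i)) z₀ := holV_of_chart hc (hσ.holo (c, i) c z₀ hc ⟨hc, hi⟩)
    exact h1.div (hu'.pow K) (pow_ne_zero _ hu0)
  · filter_upwards [hev, at_ev hc, (h.lb.isOpen i).mem_nhds hi,
      hu'.continuousAt.eventually_ne hu0] with z h1 h2 h3 h4 hne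
    have h5 : FS.mon T e (fun D => K * k D) z = FS.mon T e k z ^ K := by
      show ∏ D ∈ T, e D z ^ (K * k D) = (∏ D ∈ T, e D z ^ k D) ^ K
      rw [← Finset.prod_pow]
      refine Finset.prod_congr rfl fun D _ => ?_
      rw [← _root_.pow_mul, mul_comm]
    rw [h5] at hne ⊢
    have h6 : FS.mon T e k z ≠ 0 := fun h0 => hne (by rw [h0, zero_pow (by omega)])
    have h7 : t i z ≠ 0 := by rw [h1]; exact mul_ne_zero h4 h6
    have h8 : NZ L t z := by
      intro j hj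
      rw [h.sec.change j i z hj h3]
      exact mul_ne_zero (h.lb.ne_zero j i z hj h3) h7
    rw [val_eq h hσ h2 h3 h8, h1]
    show _ = σ (c, i) z / u z ^ K * dj c z ^ (m * K)
    rw [mul_pow]
    have e1 : u z ^ K ≠ 0 := pow_ne_zero _ h4
    have e2 : FS.mon T e k z ^ K ≠ 0 := pow_ne_zero _ h6
    field_simp

/-- the set where a section does not vanish is open -/
lemma nz_open {M : Bd X} {s : M.ι → X → ℂ} (hM : IsLB n M) (hs : IsSec n M s) {x : X}
    (hx : NZ M s x) : ∀ᶠ y in 𝓝 x, NZ M s y := by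
  obtain ⟨i, hi⟩ := hM.cover x
  have hc := at_chartAt' (n := n) x
  have h3 : HolV (Cm n) (s i) x := holV_of_chart hc (hs.holo i _ x hc hi)
  filter_upwards [h3.continuousAt.eventually_ne (hx i hi), (hM.isOpen i).mem_nhds hi] with
    z hz hz' j' hj'
  rw [hs.change j' i z hj' hz']
  exact mul_ne_zero (hM.ne_zero j' i z hj' hz') hz

lemma isLB_canL (hL : IsLB n L) (m : ℕ) : IsLB n (((Bd.can n X).pow m).mul L) :=
  Vale.Agent.P285.R2.H391.isLB_mul
    (Vale.Agent.P285.R2.H391.isLB_pow Vale.Agent.P285.R2.H391.isLB_can m) hL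

lemma isLB_canLK (hL : IsLB n L) (m K : ℕ) : IsLB n ((((Bd.can n X).pow m).mul L).pow K) :=
  Vale.Agent.P285.R2.H391.isLB_pow (isLB_canL hL m) K

/-- finitely many generating sections -/
theorem exists_gen [CompactSpace X] {M : Bd X} (hM : IsLB n M)
    (h : ∀ x, ∃ s, IsSec n M s ∧ NZ M s x) :
    ∃ (N : ℕ) (σ : Fin N → M.ι → X → ℂ), (∀ b, IsSec n M (σ b)) ∧ ∀ x, ∃ b, NZ M (σ b) x := by
  choose s hs hnz using h
  obtain ⟨T, hT⟩ := CompactSpace.elim_nhds_subcover (fun x => {y | NZ M (s x) y})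
    fun x => nz_open hM (hs x) (hnz x)
  refine ⟨T.card, fun b => s (T.equivFin.symm b : X), fun b => hs _, fun x => ?_⟩
  have hx : x ∈ (⊤ : Set X) := trivial
  rw [← hT] at hx
  simp only [mem_iUnion] at hx
  obtain ⟨y, hy, hxy⟩ := hx
  exact ⟨T.equivFin ⟨y, hy⟩, by simpa using hxy⟩

/-- a point where `t ≠ 0` is on no `D` -/
lemma notMem_of_nz (h : DivB n k L t) {x : X} (hx : NZ L t x) {D : Set X} (hD : k D ≠ 0) :
    x ∉ D := by
  obtain ⟨i, hi⟩ := h.lb.cover x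
  obtain ⟨T, e, u, hkT, he, hu, hu0, hev⟩ := h.loc i x hi
  have h4 : FS.mon T e k x ≠ 0 := fun h0 => hx i hi (by rw [hev.self_of_nhds, h0, mul_zero])
  have hDT := hkT D hD
  have h5 : e D x ≠ 0 := fun h0 => Finset.prod_ne_zero_iff.1 h4 D hDT (by rw [h0, zero_pow hD])
  intro hxD
  exact h5 ((J.IsLocalEq.mem_iff' (E := Cm n) (D := D) (he D hDT)).1 hxD)

lemma nz_of_notMem (h : DivB n k L t) {x : X} (hx : ∀ D, k D ≠ 0 → x ∉ D) : NZ L t x := by
  intro i hi
  obtain ⟨T, e, u, hkT, he, hu, hu0, hev⟩ := h.loc i x hi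
  rw [hev.self_of_nhds]
  refine mul_ne_zero hu0 (Finset.prod_ne_zero_iff.2 fun D hD => ?_)
  by_cases hkD : k D = 0
  · rw [hkD, pow_zero]; exact one_ne_zero
  · exact pow_ne_zero _ fun h0 => hx D hkD
      ((J.IsLocalEq.mem_iff' (E := Cm n) (D := D) (he D hD)).2 h0)

end

section
variable {n p d : ℕ} {X Z Y F : Type}
    [TopologicalSpace X] [T2Space X] [CompactSpace X] [ConnectedSpace X] [ChartedSpace (Cm n) X]
    [TopologicalSpace Z] [ChartedSpace (Cm n) Z]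
    [TopologicalSpace Y] [T2Space Y] [ConnectedSpace Y] [ChartedSpace (Cm p) Y]
    [TopologicalSpace F] [T2Space F] [CompactSpace F] [ConnectedSpace F] [ChartedSpace (Cm d) F]
    {Δ : Set X → ℝ} {j : Z → X} {f : Z → Y} {i : F → Z}
    {w : Chart n X → Cm n → Matrix (Fin n) (Fin n) ℂ}

theorem hasGood_of_semiample (hw : Vale.Agent.P272.K.IsKahler w)
    (hi : FS.Setup (Cm n) (Cm p) (Cm d) Δ j f i)
    {k : Set X → ℕ} {L : Bd X} {t : L.ι → X → ℂ} {m : ℕ} (hD : DivB n k L t)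
    (hk : ∀ D, (k D : ℝ) = m * Δ D) (hm : 0 < m)
    (hS : Semiample n (((Bd.can n X).pow m).mul L)) :
    FS.HasGood n d Δ (fun t => j (i t)) := by
  haveI : IsManifold 𝓘(ℂ, Cm n) ω X := hi.1
  haveI : IsManifold 𝓘(ℂ, Cm d) ω F := hi.2.2.2.1
  obtain ⟨K, hK, hgen⟩ := hS
  obtain ⟨N, σ, hσ, hnz⟩ := exists_gen (isLB_canLK hD.lb m K) hgen
  set S : Fin N → X → ℂ := fun b => val hD m K (σ b) with hSd
  set k' : Set X → ℕ := fun D => K * k D with hk'
  have hm' : (0 : ℝ) < m := by exact_mod_cast hm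
  have hK' : K ≠ 0 := by omega
  have hkΔ : ∀ D, (k' D : ℝ) = ((m * K : ℕ) : ℝ) * Δ D := by
    intro D
    simp only [hk']
    push_cast
    rw [hk D]
    ring
  have hk0 : ∀ D, k' D ≠ 0 → k D ≠ 0 := fun D h h0 => h (by simp only [hk', h0, mul_zero])
  have hkk : ∀ D, (k' + k') D ≠ 0 → k D ≠ 0 := fun D h h0 => h (by
    simp only [hk', h0, mul_zero, Pi.add_apply, add_zero])
  have hkah := Vale.Agent.P281.R2.H877.fs_kahler hw
  have hsk : FS.IsSemiKahler w := Vale.Agent.P281.R2.H877.fs_semiKahler hw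
  have hSne : ∀ x, NZ L t x → ∃ b, S b x ≠ 0 := by
    intro x hx
    obtain ⟨b, hb⟩ := hnz x
    have hc := at_chartAt' (n := n) x
    obtain ⟨i', hi'⟩ := hD.lb.cover x
    refine ⟨b, ?_⟩
    simp only [hSd]
    rw [val_eq hD (hσ b) hc hi' hx]
    exact div_ne_zero (mul_ne_zero (hb (_, i') ⟨hc, hi'⟩) (pow_ne_zero _ (dj_ne_zero hc)))
      (pow_ne_zero _ (hx i' hi'))
  refine ⟨Δ, 1, m * K, m * K, N, N, k', k', S, S, ⟨fun D => ⟨le_rfl, hkΔ D, ?_⟩, one_pos, le_rfl,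
    Nat.mul_pos hm hK, Nat.mul_pos hm hK, fun b => isSection_val hD (hσ b) hK,
    fun b => isSection_val hD (hσ b) hK⟩, ⟨0, w, hsk, ?_, ?_⟩, Or.inr ⟨w, hsk, ?_, ?_, ?_⟩⟩
  · rw [hkΔ D]; ring
  · obtain ⟨x, hx⟩ := hD.ne
    obtain ⟨b, hb⟩ := hSne x hx
    refine ⟨x, finProdFinEquiv (b, b), Fin.elim0, fun D hD' => notMem_of_nz hD hx (hkk D hD'), ?_,
      fun y => ⟨0, Subsingleton.elim _ _⟩⟩
    show S (finProdFinEquiv.symm (finProdFinEquiv (b, b))).1 x *
      S (finProdFinEquiv.symm (finProdFinEquiv (b, b))).2 x ≠ 0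
    rw [Equiv.symm_apply_apply]
    exact mul_ne_zero hb hb
  · intro x
    obtain ⟨T, e, u, i', hkT, he, hi', hu, hu0, hrep⟩ := val_rep (m := m) hD hK x
    refine ⟨T, e, 0, Fin.elim0, Fin.elim0, Fin.elim0,
      fun b z => σ b (chartAt (Cm n) x, i') z / u z ^ K,
      fun b z => σ b (chartAt (Cm n) x, i') z / u z ^ K, fun D h => hkT D (hk0 D (h.elim id id)), he,
      fun a => a.elim0, fun b => (hrep _ (hσ b)).1, fun b => (hrep _ (hσ b)).1, ?_, ?_, ?_⟩
    · obtain ⟨b, hb⟩ := hnz x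
      exact ⟨b, div_ne_zero (hb (_, i') ⟨at_chartAt' x, hi'⟩) (pow_ne_zero _ hu0)⟩
    · obtain ⟨b, hb⟩ := hnz x
      exact ⟨b, div_ne_zero (hb (_, i') ⟨at_chartAt' x, hi'⟩) (pow_ne_zero _ hu0)⟩
    · have h1 : ∀ᶠ z in 𝓝 x, ∀ b, FS.mon T e k' z ≠ 0 → S b z * FS.mon T e k' z =
          σ b (chartAt (Cm n) x, i') z / u z ^ K * FS.jac (Cm n) x z ^ (m * K) :=
        Filter.eventually_all.2 fun b => (hrep _ (hσ b)).2
      filter_upwards [h1] with z hz
      have h2 : FS.Fr (Cm n) (m * K) k' T e S (Fin.elim0 : Fin 0 → X → ℂ) Fin.elim0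
          (fun b z => σ b (chartAt (Cm n) x, i') z / u z ^ K) (id x) (id z) z := by
        intro hne b
        have h3 := hz b hne
        show S b z * FS.mon T e k' z = FS.mon Finset.univ (Fin.elim0 : Fin 0 → X → ℂ) Fin.elim0 z *
          _ * _
        rw [h3]
        simp [FS.mon]
      exact ⟨h2, h2, fun a => a.elim0⟩
  · have h1 : {t | (FS.atx w ((fun t => j (i t)) t)).PosDef} = univ := by
      refine eq_univ_of_forall fun t => ?_
      exact hkah.2 _ _ ⟨chart_mem_atlas _ _, mem_chart_source _ _⟩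
    rw [h1]
    exact dense_univ
  · -- a point of the fibre off the divisors
    have hTfin : {D | Δ D ≠ 0}.Finite := hi.2.2.2.2.1.1.1
    set T : Finset (Set X) := hTfin.toFinset with hT
    have hTm : ∀ D, D ∈ T ↔ Δ D ≠ 0 := fun D => hTfin.mem_toFinset
    have hkne : ∀ D, k D ≠ 0 → Δ D ≠ 0 := by
      intro D h0 h1
      have h2 := hk D
      rw [h1, mul_zero] at h2
      exact h0 (by exact_mod_cast h2)
    have hρ : ∀ q, HolM (Cm d) (Cm n) (fun t => j (i t)) q := fun q =>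
      ContMDiffAt.comp q (hi.2.2.2.2.2.1.1 (i q)) (hi.2.2.2.2.2.2.2.1.1 q)
    have hsys : IsSys d (eqF n (fun t => j (i t))) T := isSys_eqF hρ
      (fun D hD' => (hi.2.2.2.2.1.1.2.1 D ((hTm D).1 hD')).2.1)
      fun D hD' => hi.2.2.2.2.2.2.2.2 D ((hTm D).1 hD')
    obtain ⟨q, hq⟩ := hsys.dense_off.nonempty
    have hq' : ∀ D, k D ≠ 0 → j (i q) ∉ D := by
      intro D h0 hmem
      have hDT := (hTm D).2 (hkne D h0)
      obtain ⟨g, hg⟩ := (hi.2.2.2.2.1.1.2.1 D (hkne D h0)).2.1 (j (i q))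
      refine hq D hDT (fun t' => g (j (i t'))) ⟨g, hg, Eventually.of_forall fun _ => rfl⟩ ?_
      exact (J.IsLocalEq.mem_iff' (E := Cm n) (D := D) hg).1 hmem
    obtain ⟨b, hb⟩ := hSne _ (nz_of_notMem hD hq')
    refine ⟨q, fun D hD' => hq' D (hkk D hD'), finProdFinEquiv (b, b), ?_⟩
    show S (finProdFinEquiv.symm (finProdFinEquiv (b, b))).1 _ *
      S (finProdFinEquiv.symm (finProdFinEquiv (b, b))).2 _ ≠ 0
    rw [Equiv.symm_apply_apply]
    exact mul_ne_zero hb hb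
  · intro q
    set x : X := j (i q) with hx
    obtain ⟨T, e, u, i', hkT, he, hi', hu, hu0, hrep⟩ := val_rep (m := m) hD hK x
    set H : Fin N → X → ℂ := fun b z => σ b (chartAt (Cm n) x, i') z / u z ^ K with hH
    refine ⟨T, e, 0, Fin.elim0, Fin.elim0, FS.prodF H H, fun D h => hkT D (hkk D h), he,
      fun a => a.elim0, fun b => ?_, ?_, ?_⟩
    · exact ((hrep _ (hσ _)).1 : HolV (Cm n) (H _) x).mul ((hrep _ (hσ _)).1 : HolV (Cm n) (H _) x)
    · obtain ⟨b, hb⟩ := hnz x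
      have hHb : H b x ≠ 0 := div_ne_zero (hb (_, i') ⟨at_chartAt' x, hi'⟩) (pow_ne_zero _ hu0)
      refine ⟨finProdFinEquiv (b, b), ?_⟩
      show H (finProdFinEquiv.symm (finProdFinEquiv (b, b))).1 _ *
        H (finProdFinEquiv.symm (finProdFinEquiv (b, b))).2 _ ≠ 0
      rw [Equiv.symm_apply_apply]
      exact mul_ne_zero hHb hHb
    · have h1 : ∀ᶠ z in 𝓝 x, ∀ b, FS.mon T e k' z ≠ 0 → S b z * FS.mon T e k' z =
          H b z * FS.jac (Cm n) x z ^ (m * K) :=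
        Filter.eventually_all.2 fun b => (hrep _ (hσ b)).2
      filter_upwards [h1] with z hz
      refine ⟨fun hne b => ?_, fun a => a.elim0⟩
      have h5 : FS.mon T e (k' + k') z = FS.mon T e k' z * FS.mon T e k' z := by
        simp only [FS.mon, Pi.add_apply, pow_add, Finset.prod_mul_distrib]
      rw [h5] at hne ⊢
      have h6 := left_ne_zero_of_mul hne
      have h7 := hz (finProdFinEquiv.symm b).1 h6
      have h8 := hz (finProdFinEquiv.symm b).2 h6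
      show S (finProdFinEquiv.symm b).1 z * S (finProdFinEquiv.symm b).2 z * _ =
        FS.mon Finset.univ (Fin.elim0 : Fin 0 → X → ℂ) Fin.elim0 z *
          (H (finProdFinEquiv.symm b).1 z * H (finProdFinEquiv.symm b).2 z) * _
      have h9 : FS.mon Finset.univ (Fin.elim0 : Fin 0 → X → ℂ) Fin.elim0 z = 1 := by simp [FS.mon]
      rw [h9, pow_add]
      linear_combination (S (finProdFinEquiv.symm b).2 z * FS.mon T e k' z) * h7 +
        (H (finProdFinEquiv.symm b).1 z * FS.jac (Cm n) x z ^ (m * K)) * h8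

/-- **`K_X + Δ` semiample** -/
theorem campana_semi (hn : n = p + d) (hw : Vale.Agent.P272.K.IsKahler w)
    (hi : FS.Setup (Cm n) (Cm p) (Cm d) Δ j f i)
    {k : Set X → ℕ} {L : Bd X} {t : L.ι → X → ℂ} {m : ℕ} (hD : DivB n k L t)
    (hk : ∀ D, (k D : ℝ) = m * Δ D) (hm : 0 < m)
    (hS : Semiample n (((Bd.can n X).pow m).mul L)) :
    FS.kodR (Cm n) (Cm d) (fun t => j (i t)) Δ + FS.kodF n p Δ j f ≤ FS.kodX (Cm n) Δ := by
  haveI : IsManifold 𝓘(ℂ, Cm n) ω X := hi.1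
  exact FS.main_of H716.LC.mainPartC hn w (Vale.Agent.P281.R2.H877.fs_kahler hw) Δ j f i hi
    (hasGood_of_semiample hw hi hD hk hm hS)

end

end Vale.Agent.P281.R2.H73
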